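import Vale.Agent.P352X.R.D1
import Vale.Agent.P352Z.P352X.Main0
import Vale.Agent.P352Z.P352X.R.D1.Sm

open Vale.Agent.P352G

/-!
# P352X, row D1: the trace of the defect of locality on the null plane vanishes
-/

set_option linter.all false

open MeasureTheory Filter Topology Set
open scoped SchwartzMap ComplexConjugate ContDiff

namespace Vale.Agent.P352X

open Vale.Agent.P352 Vale.Agent.P352.GF Vale.Agent.P352.H755 Vale.Agent.P352.H246
  Vale.Agent.P352.H496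
open Th Ap Ib
open UniformSpace (Completion)
open Complex (I)

noncomputable section

namespace D1Z

variable {g : P3 → ℂ} {φ : ℝ → ℝ}

variable {D : Type*} [NormedAddCommGroup D] [InnerProductSpace ℂ D] [GrD D] {c : CtxZ D}

lemma pr_wdg (jc : JCZ c) {f : Fn} (hf : In (Wdg va vb 0) f) :
    Pr (c.N (Rc 0 0)) c.Om (c.l f) (c.l (bar f)) := by
  have e : Rc 0 0 = Wdg va vb 0 := by
    ext z
    simp [Rc, HM.Rg, Wdg]
  rw [e]
  refine jc.core va vb 0 _ _ null_va null_vb (by rw [md_ab]; exact one_pos)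
    (c.gl f hf.1) (c.gl _ (Ap.test_bar hf.1)) fun X X' hX =>
    c.wl GF.one 0 f X X' H496.isLor_one ?_ ?_
  · rwa [Set.ext fun z => (_root_.Vale.Agent.P352X.D1.wed z).1]
  · rwa [Set.ext fun z => (_root_.Vale.Agent.P352X.D1.wed z).2]

lemma key (t : T3Z c) (hs : SCHZ c) (hy : YZZ c) {r : ℝ} (hr : 0 ≤ r) (hg : Dc g) :
    Tendsto (fun n => c.l (pf (_root_.Vale.Agent.P352X.D1.da g) (cx (_root_.Vale.Agent.P352X.D1.Ph n))) -
      c.SK r (c.l (pf (_root_.Vale.Agent.P352X.D1.da fun y => g (_root_.Vale.Agent.P352X.D1.sf r y)) (cx (_root_.Vale.Agent.P352X.D1.Ph n))))) atTop (𝓝 0) := by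
  obtain ⟨ell, c0, h⟩ := t.ell
  have := _root_.Vale.Agent.P352X.D1.haar3
  obtain ⟨cc, dd, S⟩ := hs ell c0 h
  have m : ∀ {g : P3 → ℂ}, Dc g → MemLp (ft3 (_root_.Vale.Agent.P352X.D1.da g)) 2 mP := fun hg =>
    (_root_.Vale.Agent.P352X.D1.l2 (_root_.Vale.Agent.P352X.D1.sw_ft3 (dc_sw (_root_.Vale.Agent.P352X.D1.dc_da hg)))).restrict _
  have nr : ∀ {g : P3 → ℂ} (hg : Dc g), Tendsto (fun n => La h (m hg) (S1 (_root_.Vale.Agent.P352X.D1.Ph n)) -
      c.l (pf (_root_.Vale.Agent.P352X.D1.da g) (cx (_root_.Vale.Agent.P352X.D1.Ph n)))) atTop (𝓝 0) := fun hg => by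
    obtain ⟨C, hC⟩ := near h (dc_sw hg) (m hg)
    have := (_root_.Vale.Agent.P352X.D1.Ph_sq.const_mul C).sqrt
    rw [mul_zero, Real.sqrt_zero] at this
    exact squeeze_zero_norm (fun n => Real.le_sqrt_of_sq_le
      (hC _ (_root_.Vale.Agent.P352X.D1.Ph_tst n) (dc_sw (_root_.Vale.Agent.P352X.D1.dc_pf (_root_.Vale.Agent.P352X.D1.dc_da hg) (_root_.Vale.Agent.P352X.D1.Ph_tst n))))) this
  have hγ : MemLp (ft3 g) 2 m3 := mem_m3.2 ⟨(sw_cont (_root_.Vale.Agent.P352X.D1.sw_ft3 (dc_sw hg))).aestronglyMeasurable, by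
    refine ((m hg).const_mul I).ae_eq (.of_forall fun k => ?_)
    simp only [_root_.Vale.Agent.P352X.D1.ft3_da (dc_sw hg)]
    linear_combination (-(k.1 * ft3 g k)) * Complex.I_mul_I⟩
  have h1 := small t.kt S hγ h (m hg) (_root_.Vale.Agent.P352X.D1.ft3_da (dc_sw hg)) (hy ell c0 cc dd h S _root_.Vale.Agent.P352X.D1.th _root_.Vale.Agent.P352X.D1.th_bump) hr
  have h2 : ∀ n, c.S0 r (La h (m (_root_.Vale.Agent.P352X.D1.dc_sf hg r)) (S1 (_root_.Vale.Agent.P352X.D1.Ph n))) = La h (m hg) (S1 (_root_.Vale.Agent.P352X.D1.Ph n)) := fun n => by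
    have := h.s0 r (sch (_root_.Vale.Agent.P352X.D1.da fun y => g (_root_.Vale.Agent.P352X.D1.sf r y))) (sch (_root_.Vale.Agent.P352X.D1.da g))
      (fun b u => ft1 (S1 (_root_.Vale.Agent.P352X.D1.Ph n)) (u / (2 * b)))
      ((sw_cont (_root_.Vale.Agent.P352X.D1.sw_ft1 (sw_coe _))).measurable.comp (by fun_prop))
      (fun y => by rw [sch_dc (_root_.Vale.Agent.P352X.D1.dc_da hg), sch_dc (_root_.Vale.Agent.P352X.D1.dc_da (_root_.Vale.Agent.P352X.D1.dc_sf hg r)), _root_.Vale.Agent.P352X.D1.da_sf hg]; simp [_root_.Vale.Agent.P352X.D1.sf])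
    rw [coe_sch (dc_sw (_root_.Vale.Agent.P352X.D1.dc_da hg)), coe_sch (dc_sw (_root_.Vale.Agent.P352X.D1.dc_da (_root_.Vale.Agent.P352X.D1.dc_sf hg r)))] at this
    rw [La_apply, La_apply]
    exact (this (mem_prod (m (_root_.Vale.Agent.P352X.D1.dc_sf hg r)) ((_root_.Vale.Agent.P352X.D1.l2 (_root_.Vale.Agent.P352X.D1.sw_ft1 (sw_coe _))).restrict _))).2
  have := (((c.SK r).continuous.tendsto 0).comp (nr (_root_.Vale.Agent.P352X.D1.dc_sf hg r))).sub (nr hg) |>.sub h1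
  rw [map_zero, sub_zero, sub_zero] at this
  refine this.congr fun n => ?_
  rw [Function.comp, map_sub, (t.kt.comm 0 r).2, ContinuousLinearMap.mul_apply, h2]
  abel

end D1Z

open D1

variable {D : Type*} [NormedAddCommGroup D] [InnerProductSpace ℂ D] [GrD D]

/-- row D1 -/
theorem d1_rowZ (c : CtxZ D) : T3Z c → SCHZ c → YZZ c → D1Z c := by
  intro t hs hy
  refine ⟨Ph, ∫ t, |et t|, fun n => ⟨Ph_tst n, Ph_supp n, Ph_int n, Ph_abs n⟩, Ph_sq,
    fun r hr Z hZ g hg sg => ?_⟩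
  have h1 := (tendsto_const_nhds (x := star Z c.Om)).inner (𝕜 := ℂ) (_root_.Vale.Agent.P352X.D1Z.key t hs hy hr hg)
  have h2 := (_root_.Vale.Agent.P352X.D1Z.key t hs hy hr (dc_conj hg)).inner (𝕜 := ℂ) (tendsto_const_nhds (x := Z c.Om))
  have h3 := h1.sub h2
  rw [inner_zero_right, inner_zero_left, sub_zero] at h3
  refine h3.congr fun n => ?_
  have d := dc_pf (dc_da (dc_sf hg r)) (Ph_tst n)
  have p := t.kd.b 0 r _ _ le_rfl hr (_root_.Vale.Agent.P352X.D1Z.pr_wdg t.jc ⟨dc_sw d, d.2, fun z hz => by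
    obtain ⟨a, b⟩ := supp_pf _ _ hz
    have := sg (tsupport_comp_subset_preimage g (sf r).continuous
      (tsupport_fderiv_apply_subset ℝ _ a))
    exact ⟨by simpa [md_va] using (Ph_supp n b).2, by simpa [sf, md_vb] using this⟩⟩) Z hZ
  rw [sub_zero, bar_pf (dc_sf hg r)] at p
  rw [CtxZ.bb, dv_pf hg (Ph_tst n), bar_pf hg, inner_sub_right, inner_sub_left, p]
  ring

end

end Vale.Agent.P352X
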