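import Vale.Agent.P352Z.P352X.R.GRP.B
import Vale.Agent.P352Z.P352X.R.GRP.C

open Vale.Agent.P352G

/-!
# P352X, row GRP
-/

set_option linter.all false

namespace Vale.Agent.P352X

open Vale.Agent.P352 Vale.Agent.P352.GF Vale.Agent.P352.BW
open UniformSpace (Completion)

variable {D : Type*} [NormedAddCommGroup D] [InnerProductSpace ℂ D] [GrD D]

theorem Grp.gTvZ (c : CtxZ D) {F : Ix → Ix → Fn} (hF : ∀ m n, IsTest (F m n)) :
    Gm D (c.Tv F) = c.Tv F := by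
  have e : ∀ m n, Gm D ((c.T m n (F m n) c.Q.vac : D) : Completion D) =
      ((c.T m n (F m n) c.Q.vac : D) : Completion D) := fun m n => by
    rw [c.bR.ext, Gd, ← c.bR.gr.bose _ _ _ (c.hT.bose m n) (hF m n)]
    exact congrArg (fun v => ((c.T m n (F m n) v : D) : Completion D)) c.bR.gvac
  have h : c.Tv F = ∑ m, ∑ n, ((c.T m n (F m n) c.Q.vac : D) : Completion D) := by
    simp only [CtxZ.Tv, CtxZ.Tf, ← Completion.coe_toComplL (𝕜 := ℂ), map_sum]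
  simp only [h, map_sum, e]

theorem Grp.gThZ (c : CtxZ D) {f : Fn} (hf : IsTest f) : Gm D (c.Th f) = c.Th f := by
  have e : ∀ m, Gm D ((c.T m m f c.Q.vac : D) : Completion D) =
      ((c.T m m f c.Q.vac : D) : Completion D) := fun m => by
    rw [c.bR.ext, Gd, ← c.bR.gr.bose _ _ _ (c.hT.bose m m) hf]
    exact congrArg (fun v => ((c.T m m f v : D) : Completion D)) c.bR.gvac
  have h : c.Th f = ∑ m, (eta m : ℂ) • ((c.T m m f c.Q.vac : D) : Completion D) := by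
    simp only [CtxZ.Th, CtxZ.Thf, GF.tr, ← Completion.coe_toComplL (𝕜 := ℂ), map_sum, map_smul]
  simp only [h, map_sum, map_smul, e]

/-- **row GRP** -/
theorem grp_rowZ (c : CtxZ D) : GRPZ c where
  na := Grp.na
  nb := Grp.nb
  nab := Grp.nab
  uni := Grp.uniZ c.bR
  vac := Grp.vacZ c.bR
  mul _ _ a _ _ a' := Grp.ug_mulZ c.bR a a'
  mulG _ _ a _ _ a' := c.bR.ug_mul' a a'
  mulE _ _ a _ _ a' _ hs hs' hL hL' hz := c.bR.ug_mul_ev a a' hs hs' hL hL' hz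
  g2 := c.bR.g2
  gs := c.bR.gs
  gv := c.bR.gv
  gU := c.bR.gU
  gS _ t ha := Grp.gSZ c.hN c.hS.toGrp0 ha t
  gN := c.hN.gam
  gT m n f v hf := c.bR.gr.bose _ f v (c.hT.bose m n) hf
  gext := c.bR.ext
  gTv _ := Grp.gTvZ c
  gTh _ := Grp.gThZ c
  gbt _ z hF := c.bt.cov c.bt SN.isPair_mdot measurable_id (fun _ _ => rfl) (Gm D)
    (fun y => c.bR.gUz 1 GF.one y z) hF
  ga3 _ z hF := c.a3.cov c.a3 Br.isPair_pr3 measurable_id (fun _ _ => rfl) (Gm D)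
    (fun y => (c.bR.gUz 1 GF.one _ _).trans (congrArg _ (c.bR.gUz 1 _ 0 z))) hF
  coe _ _ a v hs hL := Grp.coe hs hL a v
  cont _ _ _ _ _ _ _ _ v := Grp.contZ c.bR v
  alg _ _ a O hs hL := Grp.algZ c.hN hs hL a O
  lsc _ _ := Grp.lsc
  lga := Grp.lga
  lgb := Grp.lgb
  ut0 := Grp.ut0
  ut := Grp.utZ c.bR
  sc1 := Grp.sc1
  sc _ _ _ _ := Grp.scZ c.bR
  ga0 := Grp.ga0
  ga := Grp.gaZ c.bR
  gb0 := Grp.gb0
  gb := Grp.gbZ c.bR
  sc_ut _ _ := Grp.sc_utZ c.bR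
  ga_ut := Grp.ga_utZ c.bR
  gb_ut := Grp.gb_utZ c.bR
  sc_ga _ _ := Grp.sc_gaZ c.bR
  sc_gb _ _ := Grp.sc_gbZ c.bR
  sc_S _ _ := Grp.sc_S c.hS.toGrp0
  ga_S := Grp.ga_S c.hS.toGrp0
  pa_S := Grp.pa_S c.hS
  S_ut := Grp.S_utZ c.bR c.hS
  S_uni _ t ha := Grp.S_uni c.hS.toGrp0 ha t
  ten _ _ a h k _ v := Grp.ten c.hT a h k v
  th _ _ a _ v := Grp.th c.hT a v
  pot _ _ a _ := Grp.potZ c.bR c.hl a
  perp m n _ := Grp.perp c.hT m n
  perpl _ := Grp.perpl c.hl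
  cons h _ v := Grp.cons c.hT h v
  trace _ v := Grp.trace c.hT v
  afft _ _ := Grp.afftZ c.hN c.hT
  affh _ _ := Grp.affhZ c.hN c.hT
  affa _ _ _ := Grp.affaZ c.hN
  rs _ := c.hN.cyc
  md _ := Grp.mdZ c.hN c.hS.toGrp0
  geo _ _ := Grp.geo c.hS.toGrp0

end Vale.Agent.P352X
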