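import Vale.Agent.P352X.Api3
import Vale.Agent.P352Z.P352X.R.TWO.Vc

open Vale.Agent.P352G

/-!
# P352X, row ZC (helper21)
-/

set_option linter.all false

open MeasureTheory Measure Set Filter Topology Metric
open scoped SchwartzMap ComplexConjugate NNReal ENNReal

namespace Vale.Agent.P352X

open Vale.Agent.P352.GF Vale.Agent.P352.BW Vale.Agent.P352.H496 Vale.Agent.P352.H755
open Vale.Agent.P352.H246 (In)
open UniformSpace (Completion)
open Complex (I)

noncomputable section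

variable {D : Type*} [NormedAddCommGroup D] [InnerProductSpace ℂ D] [GrD D] {c : CtxZ D}
  {φ φ' : Fn → Completion D} {x y : ℝ}

namespace Two

/-- local extension to Schwartz space -/
lemma cov2_locZ (h : c.Cov2 φ x y) {K : Set V} (hK : IsCompact K) :
    ∃ Λ : Sch →L[ℂ] Completion D, ∀ g : Sch, (∀ z ∉ K, g z = 0) → Λ g = φ (ev g) := by
  obtain ⟨χ, h1, -, h2, -⟩ := Ap.ex_chi hK isOpen_univ (subset_univ _)
  have hd := Ap.dc_cx h1
  have ht := Ap.cs_temp hd
  let M : Sch →L[ℂ] Sch := SchwartzMap.smulLeftCLM ℂ fun z => (χ z : ℂ)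
  have hM : ∀ g z, M g z = χ z * g z := fun g z => SchwartzMap.smulLeftCLM_apply_apply ht g z
  have hs : ∀ g, tsupport (M g) ⊆ tsupport χ := fun g =>
    Ap.tsupp_of_zero fun z hz => by simp [hM, hz]
  have hi : ∀ g, In univ (ev (M g)) := fun g =>
    ⟨⟨_, rfl⟩, h1.2.of_isClosed_subset (isClosed_tsupport _) (hs g), subset_univ _⟩
  have lin : ∀ (f g : Sch) (a : ℂ), φ (ev (M (f + a • g))) = φ (ev (M f)) + a • φ (ev (M g)) :=
    fun f g a => by
      rw [← h.lin _ _ a (hi f) (hi g), map_add, map_smul]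
      rfl
  have h0 : φ (ev (M 0)) = 0 := by simpa using lin 0 0 1
  let L : Sch →ₗ[ℂ] Completion D :=
    { toFun := fun g => φ (ev (M g))
      map_add' := fun f g => by simpa using lin f g 1
      map_smul' := fun a g => by simpa only [h0, zero_add, RingHom.id_apply] using lin 0 g a }
  obtain ⟨m, C, hC⟩ := h.bd _ h1.2
  have hc : Continuous L := continuous_of_continuousAt_zero L (by
    rw [ContinuousAt, map_zero]
    refine squeeze_zero_norm (fun g => hC (M g) (hs g)) ?_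
    simp only [Api4.sn_eq]
    simpa using (((ST.continuous_sn m).comp M.continuous).tendsto 0).const_mul C)
  refine ⟨⟨L, hc⟩, fun g hg => congrArg (fun u => φ (ev u)) (SchwartzMap.ext fun z => ?_)⟩
  by_cases hz : z ∈ K
  · rw [hM, (h2 z hz).self_of_nhds, Complex.ofReal_one, one_mul]
  · rw [hM, hg z hz, mul_zero]

lemma cov2_relZ (h : c.Cov2 φ x y) {f g : Fn} (hf : In univ f) (hg : In univ g) :
    c.bt.Phi (ft g) (φ f) = c.bt.Phi (ft f) (φ g) := by
  obtain ⟨Λ, hΛ⟩ := cov2_locZ h (hf.2.1.isCompact.add hg.2.1.isCompact)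
  obtain ⟨f, rfl⟩ := hf.1
  obtain ⟨g, rfl⟩ := hg.1
  have tr : ∀ (u : Sch) (y : V), In univ (ev u) → φ (ev (ST.tsl y u)) = Ut c.Q y (φ (ev u)) :=
    fun u y hu => by
      rw [← h.tra y _ (show In univ (ev (ST.tsl y u)) from
        in_iff.2 (Api4.dc_sub_const (in_iff.1 hu) y))]
      simp [ev, ST.tsl_apply]
  refine rel_clmZ Λ (fun y hy => (hΛ _ fun z hz => by_contra fun h0 => hz ?_).trans (tr f y hf))
    fun y hy => (hΛ _ fun z hz => by_contra fun h0 => hz ?_).trans (tr g y hg)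
  · exact ⟨z - y, subset_tsupport _ h0, y, subset_tsupport _ hy, sub_add_cancel z y⟩
  · exact ⟨y, subset_tsupport _ hy, z - y, subset_tsupport _ h0, add_sub_cancel y z⟩

lemma cov2_cvZ (h : c.Cov2 φ x y) : CvZ c φ x y :=
  ⟨fun _ hf => cov2_relZ h hf g0_in, fun w => h.rot w _ g0_in,
    fun r s hr hs => h.sca r s _ hr hs g0_in, h.perp _ g0_in⟩

theorem CvZ.vc (h : CvZ c φ x y) : VcZ c (ft g0) (φ g0) (x + 2) (y + 2) where
  ga w := by
    have b := wt_g0.bd
    have e := congrArg (Ga c.Q w) (h.rel _ (in_conf (conf_gap w) g0_in))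
    rw [Ga_PhiZ w b, h.rot, Ga_PhiZ w (bd_ft (test_conf (conf_gap w) g0_in.1))] at e
    simpa [ft_gap, gap_gap] using e.symm
  sc r s hr hs := by
    have b := wt_g0.bd
    have e := congrArg (Usc c.Q r s) (h.rel _ (in_conf (conf_scp hr hs) g0_in))
    rw [Usc_PhiZ hr hs b, h.sca r s hr hs,
      Usc_PhiZ hr hs (bd_ft (test_conf (conf_scp hr hs) g0_in.1)), map_smul] at e
    simp only [ft_scp hr hs, scp_scp _ (inv_pos.2 hs).le (inv_pos.2 hr).le, inv_mul_cancel₀ hr.ne',
      inv_mul_cancel₀ hs.ne', scp_one] at e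
    rw [c.bt.smul _ b, ContinuousLinearMap.smul_apply] at e
    rw [show ((r ^ (x + 2) * s ^ (y + 2) : ℝ) : ℂ) = ((r * s) ^ 2 : ℝ) * (r ^ x * s ^ y : ℝ) by
      rw [Real.rpow_add hr, Real.rpow_add hs, Real.rpow_two, Real.rpow_two]; push_cast; ring,
      mul_smul, e, smul_smul, ← Complex.ofReal_mul, mul_inv_cancel₀ (by positivity),
      Complex.ofReal_one, one_smul]

/-- from the reference vectors to all test functions -/
theorem transferZ {v w v' w' : Completion D} {m : Measure V} {K F F' H : V → ℂ} (hK : SN.Bd K)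
    (h0 : ∀ p, K p ≠ 0) (hF : SN.Bd F) (hF' : SN.Bd F') (e : c.bt.Phi K v' = c.bt.Phi F v)
    (e' : c.bt.Phi K w' = c.bt.Phi F' w)
    (h : ∀ G, SN.Bd G → inner ℂ v (c.bt.Phi G w) = ∫ p, G p * (conj (K p) * K p * H p) ∂m)
    (hi : Integrable (fun p => H p * (conj (F p) * F' p)) m) {G : V → ℂ} (hG : SN.Bd G) :
    inner ℂ v' (c.bt.Phi G w') = ∫ p, G p * (H p * (conj (F p) * F' p)) ∂m := by
  have hne : ∀ p, conj (K p) * K p ≠ 0 := fun p => mul_ne_zero (by simpa using h0 p) (h0 p)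
  refine liftZ (hK.cj.mul hK) hi (fun G hG => ?_) (.of_forall hne) (.of_forall hne) hG
  rw [show (fun p => G p * (conj (K p) * K p)) = fun p => conj (K p) * (G p * K p) from
    funext fun p => by ring, c.bt.mul_apply hK.cj (hG.mul hK), ← c.bt.adj hK, e,
    c.bt.mul_apply hG hK, e', c.bt.adj hF, ← c.bt.mul_apply hG hF',
    ← c.bt.mul_apply hF.cj (hG.mul hF'), h _ (hF.cj.mul (hG.mul hF'))]
  exact integral_congr_ae (.of_forall fun p => by ring)

end Two

open Two

/-- row ZC, without hypotheses -/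
theorem zc_thmZ (c : CtxZ D) : ZCZ c where
  zer φ x y h hy f hf := (cov2_cvZ h).zero hy hf.1 (cov2_relZ h hf g0_in)
  cls φ φ' h h' := by
    have a := (cov2_cvZ h).vc
    obtain ⟨κ, -, -, e⟩ := overlapZ a (cov2_cvZ h').vc wt_g0
      (a.high wt_g0 (by norm_num) (h.perp _ g0_in))
    refine ⟨κ, fun f f' hf hf' => ?_⟩
    have := transferZ (H := fun _ => κ) wt_g0.bd g0_ne (bd_ft hf.1) (bd_ft hf'.1)
      (cov2_relZ h hf g0_in) (cov2_relZ h' hf' g0_in) (fun G hG => (e G hG).trans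
        (integral_congr_ae (.of_forall fun p => by
          simp only [SN.conj_mul_self, dn]; norm_num [mul_comm])))
      ((SN.integrable_conj_mul (memLp_ft hf.1 Fc) (memLp_ft hf'.1 Fc)).const_mul κ) (.const 1)
    simpa [c.bt.one, integral_const_mul] using this

theorem zc_rowZ (c : CtxZ D) : T1Z c → ZCZ c := fun _ => zc_thmZ c

end

end Vale.Agent.P352X
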