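import Vale.Agent.P352X.R.TWO
import Vale.Agent.P352Z.P352X.R.TWO.St

open Vale.Agent.P352G

/-!
# P352X, row TWO: the two point function of the stress tensor (helper21)
-/

set_option linter.all false

open MeasureTheory Measure Set Filter Topology
open scoped SchwartzMap ComplexConjugate NNReal ENNReal

namespace Vale.Agent.P352X

open Vale.Agent.P352.GF Vale.Agent.P352.BW Vale.Agent.P352.H496 Vale.Agent.P352.H755
open UniformSpace (Completion)

noncomputable section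

variable {D : Type*} [NormedAddCommGroup D] [InnerProductSpace ℂ D] [GrD D] {c : CtxZ D}

namespace Two

lemma nu_sum_leZ {ι : Type*} (s : Finset ι) {w : ι → Completion D} {M : Measure V}
    (h : ∀ i, c.nu (w i) ≤ M) : c.nu (∑ i ∈ s, w i) ≤ (4 ^ s.card : ℝ≥0) • M := by
  classical
  refine Finset.induction_on s (c.bt.nu_zero.trans_le (Measure.zero_le _)) fun a s ha ih => ?_
  rw [Finset.sum_insert ha, Finset.card_insert_of_notMem ha]
  refine (c.bt.nu_add_le _ _).trans (Measure.le_iff'.2 fun S => ?_)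
  have h1 := Measure.le_iff'.1 (h a) S
  have h2 := Measure.le_iff'.1 ih S
  have h3 : M S ≤ (4 ^ s.card : ℝ≥0) • M S := le_mul_of_one_le_left' (by
    exact_mod_cast one_le_pow₀ (by norm_num : (1 : ℝ≥0) ≤ 4))
  calc _ ≤ (2 : ℝ≥0) • ((4 ^ s.card : ℝ≥0) • M S + (4 ^ s.card : ℝ≥0) • M S) :=
        mul_le_mul_right (add_le_add (h1.trans h3) h2) _
    _ = _ := by
      simp only [Measure.smul_apply, ENNReal.smul_def, smul_eq_mul]
      push_cast
      ring

variable {K : V → ℂ}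

/-- one component -/
lemma two_oneZ (hK : Ad 2 K) (A : Fin 2 → Fin 4) : ∃ κ : ℝ≥0, ∀ (h k : V) (G F : V → ℂ),
    SN.Bd (fun p => G p * cfs ![h, k] A p) → (∀ p, ‖G p‖ * ‖K p * ft g0 p‖ ≤ ‖F p‖) →
    c.nu (c.bt.Phi (fun p => G p * cfs ![h, k] A p) (ZfZ c (LTZ c) K A)) ≤ κ •
      (volume.restrict Fc).withDensity fun p => ENNReal.ofReal (nn p h * nn p k * ‖F p‖ ^ 2) := by
  by_cases hA : A 0 = 3 ∨ A 1 = 3
  · exact ⟨0, fun h k G F _ _ => by
      rw [zf_zeroZ hK hA, map_zero]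
      exact c.bt.nu_zero.trans_le (Measure.zero_le _)⟩
  rw [not_or] at hA
  obtain ⟨κ, e⟩ := ((mu_TZ c).vc hK A).fc (hK.wt1.mono (subset_univ _))
  refine ⟨κ, fun h k G F hG hF => ?_⟩
  have hm := hK.wt1.bd.1
  rw [restrict_eq_self_of_ae_mem (zf_aeZ hK A), mm_wd hm] at e
  rw [nu_Phi'Z hG, e, ENNReal.smul_def, ENNReal.smul_def, withDensity_smul_measure, ← withDensity_mul _ (meas_dn hm _ _).ennreal_ofReal
    (meas_sq2 hG.1)]
  refine Measure.le_iff'.2 fun S => mul_le_mul_right (Measure.le_iff'.1 (withDensity_mono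
    ((ae_fc _).mono fun p hp => ?_)) S) _
  obtain ⟨h1, h2⟩ := (mem_Fc p).1 hp
  have a0 := cf_le hA.1 h hp
  have a1 := cf_le hA.2 k hp
  simp only [Pi.mul_apply, sq2, ← ENNReal.ofReal_mul (dn_nonneg _ _ _ hp)]
  refine ENNReal.ofReal_le_ofReal ?_
  calc _ = cf h (A 0) p ^ 2 * (be p ^ (2 * (xw (A 0) - yw (A 0))) * mu p ^ (1 + 2 * yw (A 0))) *
        (cf k (A 1) p ^ 2 * (be p ^ (2 * (xw (A 1) - yw (A 1))) * mu p ^ (1 + 2 * yw (A 1)))) *
        (‖G p‖ * ‖K p * ft g0 p‖) ^ 2 := by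
        rw [dn, Fin.sum_univ_two, Fin.sum_univ_two, show 2 * (4 / 2 + (xw (A 0) + xw (A 1))) -
          2 * (4 / 2 + (yw (A 0) + yw (A 1))) = 2 * (xw (A 0) - yw (A 0)) +
          2 * (xw (A 1) - yw (A 1)) by ring, show 2 * (4 / 2 + (yw (A 0) + yw (A 1))) - 2 =
          1 + 2 * yw (A 0) + (1 + 2 * yw (A 1)) by ring, Real.rpow_add h1, Real.rpow_add h2,
          norm_mul (G p), cfs, Complex.norm_real, mul_pow, Real.norm_eq_abs, sq_abs,
          Fin.prod_univ_two]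
        simp only [Matrix.cons_val_zero, Matrix.cons_val_one]
        ring
    _ ≤ _ := by
        have b0 : 0 ≤ nn p h := le_trans (by positivity) a0
        have b1 : 0 ≤ nn p k := le_trans (by positivity) a1
        gcongr
        exact hF p

end Two

open Two in
/-- row TWO, without hypotheses -/
theorem two_thmZ (c : CtxZ D) : TWOZ c := by
  obtain ⟨K, hK⟩ := ex_ad 2
  choose κ hκ using two_oneZ (c := c) hK
  refine ⟨(4 ^ 16 * ∑ A, κ A : ℝ≥0), NNReal.coe_nonneg _, ?_⟩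
  rintro h k _ ⟨f, rfl⟩
  have b := wt_g0.bd
  have bf : SN.Bd (ft (ev f)) := bd_ft ⟨f, rfl⟩
  simp only [mul_assoc, ENNReal.ofReal_mul (NNReal.coe_nonneg _), ENNReal.ofReal_coe_nnreal]
  rw [show (fun p => ((4 ^ 16 * ∑ A, κ A : ℝ≥0) : ℝ≥0∞) * _) = (4 ^ 16 * ∑ A, κ A : ℝ≥0) •
    fun p => ENNReal.ofReal (nn p h * nn p k * ‖ft (ev f) p‖ ^ 2) from funext fun p => by
      simp only [mul_assoc]; rfl, ENNReal.smul_def, withDensity_smul' _ _ ENNReal.coe_ne_top, ← ENNReal.smul_def, mul_smul]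
  refine le_of_Bn (Br.ae_be_posZ c (by
    simp only [Tv_hkZ, inner_sum, inner_smul_right, LT_perpZ, mul_zero, Finset.sum_const_zero]))
    fun n => ?_
  have hG : Cp {p | 0 < be p} fun p => (Bn n).indicator (ft (ev f)) p * (K p * ft g0 p)⁻¹ :=
    (cp_ind (Bn_cpt n) (Bn_sub n) bf).mul (minv hK.wt1.bd.1)
      ((hK.wt1.cont.mono (subset_univ _)).inv₀ fun p _ => hK.wt1.ne p)
  rw [CtxZ.nu, ← c.bt.nu_P (Bn_cpt n).measurableSet, (Phi_injZ (c := c) b g0_ne ?_).trans
    (expandZ (Λ := LTZ c) hK hG subset_rfl ![h, k]) (a := c.bt.P (Bn n) (c.Tv (hk h k (ev f))))]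
  · refine nu_sum_leZ _ fun A => (hκ A h k _ _ (hG.cfs subset_rfl _ A).1 fun p => ?_).trans
      (Measure.le_iff'.2 fun S => mul_le_mul_left (ENNReal.coe_le_coe.2
        (Finset.single_le_sum (fun _ _ => zero_le) (Finset.mem_univ A))) _)
    rw [← norm_mul, inv_mul_cancel_right₀ (hK.wt1.ne p)]
    exact norm_indicator_le_norm_self _ _
  · have bi := SN.Bd.ind (Bn_cpt n).measurableSet
    rw [SN.Calc.P, c.bt.comm b bi, Tv_hkZ, ← c.bt.mul_apply b (hG.1.mul hK.wt.bd)]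
    simp only [_root_.map_sum, map_smul, (mu_TZ c).rel _ f, ← c.bt.mul_apply bi bf]
    congr! 4 with J _ p
    funext p
    by_cases hp : p ∈ Bn n
    · simp only [indicator_of_mem hp]
      field_simp [hK.wt.ne p, g0_ne p]
    · simp only [indicator_of_notMem hp, zero_mul, mul_zero]

theorem two_rowZ (c : CtxZ D) : T1Z c → TWOZ c := fun _ => two_thmZ c

end

end Vale.Agent.P352X
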