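import Vale.Agent.P352X.R.FAR
import Vale.Agent.P352Z.P352X.Spec

open Vale.Agent.P352G

/-!
# P352X, row FAR: far parts of the plane, and both legs on one side (helper34)
-/

set_option linter.all false

open MeasureTheory Filter Topology
open scoped SchwartzMap ComplexConjugate ENNReal ContDiff

namespace Vale.Agent.P352X

open Vale.Agent.P352 Vale.Agent.P352.GF Vale.Agent.P352.BW Vale.Agent.P352.H246
open Vale.Agent.P352.H496 Vale.Agent.P352.H755 Vale.Agent.P352.H15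
open UniformSpace (Completion)

noncomputable section

namespace Far

/-! ### test functions -/

/-! ### factorization -/

variable {D : Type*} [NormedAddCommGroup D] [InnerProductSpace ℂ D] [GrD D] (c : CtxZ D)

lemma T_smulZ (m n : Ix) (a : ℂ) {f : Fn} (hf : IsTest f) (v : D) :
    c.T m n (fun x => a * f x) v = a • c.T m n f v := by
  have hB := c.Q.bose_fld _ (c.hT.bose m n)
  have h0 : IsTest fun _ : V => (0 : ℂ) := ⟨0, rfl⟩
  have h1 := c.Q.lin _ _ _ 1 v hB h0 h0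
  have h2 := c.Q.lin _ _ _ a v hB h0 hf
  simp only [mul_zero, add_zero, one_smul, left_eq_add, zero_add] at h1 h2
  rw [h2, h1, zero_add]

lemma Tv_hkZ (h k : V) {f : Fn} (hf : IsTest f) : c.Tv (hk h k f) = ∑ m, ∑ n,
    ((eta m * h m * (eta n * k n) : ℝ) : ℂ) • ((c.T m n f c.Q.vac : D) : Completion D) := by
  have e : ∀ m n, c.T m n (hk h k f m n) c.Q.vac =
      ((eta m * h m * (eta n * k n) : ℝ) : ℂ) • c.T m n f c.Q.vac := fun m n => T_smulZ c m n _ hf _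
  simp only [CtxZ.Tv, CtxZ.Tf, e]
  change Completion.toComplL (𝕜 := ℂ) _ = _
  simp only [map_sum, map_smul]
  rfl

/-- the middle leg is not earlier than the two others -/
theorem facPZ [Fact c.tp] (f : Sch) (G : S2) (F : S3) (e : ∀ x y z, F (x, y, z) = G (x, z) * f y)
    (h : Late (tsupport f) (legs G)) :
    c.t0 F = inner ℂ (c.Tv (hk va va (bar (ev f)))) (wTT c.wp G) := by
  have key : ∀ I J K, c.t I J K F =
      inner ℂ ((c.T J.1 J.2 (bar (ev f)) c.Q.vac : D) : Completion D) (c.wp I K G) := by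
    intro I J K
    rw [c.hTP.swap1 I J K F (SchwartzMap.compCLMOfContinuousLinearEquiv ℂ sw1 F) fun _ _ _ => rfl]
    exact c.hTP.fac1 J I K f G _ (fun x y z => (e y x z).trans (mul_comm _ _)) h
  rw [Tv_hkZ c va va (isTest_bar ⟨f, rfl⟩)]
  simp only [sum_inner, inner_smul_left]
  simp only [CtxZ.t0, key, wTT, inner_sum, inner_smul_right, Complex.conj_ofReal, Finset.mul_sum]
  rw [Finset.sum_comm]
  refine Finset.sum_congr rfl fun k _ => ?_
  rw [Finset.sum_comm]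
  refine Finset.sum_congr rfl fun l _ => Finset.sum_congr rfl fun m _ =>
    Finset.sum_congr rfl fun n _ => ?_
  push_cast
  ring

/-- the middle leg is not later than the two others -/
theorem facMZ [Fact c.tp] (f : Sch) (G G' : S2) (F : S3) (e : ∀ x y z, F (x, y, z) = G (x, z) * f y)
    (e' : ∀ x, G' x = star (G x)) (h : Late (legs G) (tsupport f)) :
    c.t0 F = inner ℂ (wTT c.wm G') (c.Tv (hk va va (ev f))) := by
  have key : ∀ I J K, c.t I J K F =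
      inner ℂ (c.wm I K G') ((c.T J.1 J.2 (ev f) c.Q.vac : D) : Completion D) := by
    intro I J K
    rw [c.hTP.swap2 I J K F (SchwartzMap.compCLMOfContinuousLinearEquiv ℂ sw2 F) fun _ _ _ => rfl]
    exact c.hTP.fac3 I K J G G' f _ (fun x y z => e x z y) e' h
  rw [Tv_hkZ c va va ⟨f, rfl⟩]
  simp only [CtxZ.t0, key, wTT, sum_inner, inner_sum, inner_smul_left, inner_smul_right,
    Complex.conj_ofReal, Finset.mul_sum]
  rw [Finset.sum_comm]
  refine Finset.sum_congr rfl fun k _ => ?_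
  rw [Finset.sum_comm]
  refine Finset.sum_congr rfl fun l _ => Finset.sum_congr rfl fun m _ =>
    Finset.sum_congr rfl fun n _ => ?_
  push_cast
  ring

lemma t0_addZ (F G : S3) : c.t0 (F + G) = c.t0 F + c.t0 G := by
  simp only [CtxZ.t0, map_add, mul_add, Finset.sum_add_distrib]

variable {c}

/-- `U(sc(L, 1)) T_aa(g ρ) Ω = L T_aa(g_L ρ) Ω` -/
theorem usc_TvZ (hg : GRPZ c) {g : P3 → ℝ} {ρ : ℝ → ℝ} (h1 : Tst g) (h2 : Tst ρ) {L : ℝ}
    (hL : 0 < L) :
    Usc c.Q L 1 (c.Tv (hk va va (pr g ρ))) = (L : ℂ) • c.Tv (hk va va (pr (kL g L) ρ)) := by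
  obtain ⟨hΛ, hs⟩ := hg.lsc L 1 hL one_pos
  have hq : 0 < Real.sqrt (L * 1) := Real.sqrt_pos.2 (by positivity)
  have hq' : 0 < Real.sqrt L := Real.sqrt_pos.2 hL
  have ht := isTest_dc (dc_pr (tst_kL h1 hL) h2)
  set Λ := bst va vb (Real.sqrt (L / 1) - 1) (Real.sqrt (1 / L) - 1)
  have e1 : (fun x => pr (kL g L) ρ (sim (Real.sqrt (L * 1)) Λ 0 x)) = pr g ρ := by
    funext x
    rw [hs]
    simp only [pr, kL, pl_1, pl_2, al_scp, be_scp, tx_scp, mul_one, one_mul, smul_smul]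
    rw [inv_mul_cancel₀ hq'.ne', one_smul, mul_div_cancel_left₀ _ hL.ne']
    rfl
  have e2 : sim 1 Λ 0 va = Real.sqrt L • va := by
    have h3 : Real.sqrt L • sim 1 Λ 0 va = L • va := by
      have : scp L 1 va = L • va := null_ext (by simp) (by simp) (by simp)
      rw [← this, ← hs]
      funext n
      simp [sim]
    have h4 : L • va = Real.sqrt L • Real.sqrt L • va := by
      rw [smul_smul, Real.mul_self_sqrt hL.le]
    exact smul_right_injective _ hq'.ne' (h3.trans h4)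
  have := hg.ten _ Λ 0 va va _ c.Q.vac hq hΛ ht
  rw [e1, e2, c.Q.U_vac _ _ _ hq hΛ] at this
  rw [CtxZ.Tv, Usc, hg.coe _ _ _ _ hq hΛ, this]
  change c.Tv _ = _
  rw [Tv_hkZ c _ _ ht, Tv_hkZ c _ _ ht, Finset.smul_sum]
  refine Finset.sum_congr rfl fun m _ => ?_
  rw [Finset.smul_sum]
  refine Finset.sum_congr rfl fun n _ => ?_
  rw [smul_smul, ← Complex.ofReal_mul]
  congr 2
  simp only [Pi.smul_apply, smul_eq_mul]
  have := Real.mul_self_sqrt hL.le
  linear_combination (eta m * va m * (eta n * va n)) * this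

lemma perp_TvZ (hg : GRPZ c) (h k : V) {f : Fn} (hf : IsTest f) :
    inner ℂ c.Om (c.Tv (hk h k f)) = 0 := by
  rw [Tv_hkZ c _ _ hf]
  simp only [inner_sum, inner_smul_right, CtxZ.Om, om, Completion.inner_coe, hg.perp _ _ _ hf,
    mul_zero, Finset.sum_const_zero]

/-- weak nullity along `sc(L, 1)` -/
lemma wnZ (hg : GRPZ c) (hb : BASZ c) {η : Completion D} (h : inner ℂ c.Om η = 0)
    (w : Completion D) : Tendsto (fun L : ℝ => inner ℂ (Usc c.Q L 1 η) w) atTop (𝓝 0) := by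
  have := hb.wn ℝ atTop (fun L => max L 1) (fun _ => 1) (fun _ => 0) (fun _ => η) η w
    (fun L => ⟨lt_max_of_lt_right one_pos, one_pos⟩)
    (Or.inl (tendsto_atTop_mono (fun L => le_max_left L 1) tendsto_id)) tendsto_const_nhds h
  refine this.congr' ?_
  filter_upwards [eventually_ge_atTop (1 : ℝ)] with L hL
  rw [hg.ut0, max_eq_left hL]
  rfl

theorem triPZ [Fact c.tp] (hg : GRPZ c) {g : P3 → ℝ} {ρ : ℝ → ℝ} {Ψ : V × V → ℂ} (h1 : Tst g) (h2 : Tst ρ)
    (h3 : Dc Ψ) {L : ℝ} (hL : 0 < L) (h : Late (tsupport (pr (kL g L) ρ)) (legs Ψ)) :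
    (L : ℂ) * c.t0 (tri Ψ g ρ L) =
      inner ℂ (Usc c.Q L 1 (c.Tv (hk va va (pr g ρ)))) (wTT c.wp (sch Ψ)) := by
  have hf := dc_pr (tst_kL h1 hL) h2
  rw [facPZ c (sch (pr (kL g L) ρ)) (sch Ψ) _ (fun x y z => by
      rw [sch_apply (dc_tri h3 hf), sch_apply h3, sch_apply hf])
      (by rwa [sch_coe hf, sch_coe h3]), usc_TvZ hg h1 h2 hL, inner_smul_left, Complex.conj_ofReal,
    ev, sch_coe hf, bar_pr]

theorem triMZ [Fact c.tp] (hg : GRPZ c) {g : P3 → ℝ} {ρ : ℝ → ℝ} {Ψ : V × V → ℂ} (h1 : Tst g) (h2 : Tst ρ)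
    (h3 : Dc Ψ) {L : ℝ} (hL : 0 < L) (h : Late (legs Ψ) (tsupport (pr (kL g L) ρ))) :
    (L : ℂ) * c.t0 (tri Ψ g ρ L) = inner ℂ (wTT c.wm (sch fun z => star (Ψ z)))
      (Usc c.Q L 1 (c.Tv (hk va va (pr g ρ)))) := by
  have hf := dc_pr (tst_kL h1 hL) h2
  rw [facMZ c (sch (pr (kL g L) ρ)) (sch Ψ) (sch fun z => star (Ψ z)) _ (fun x y z => by
      rw [sch_apply (dc_tri h3 hf), sch_apply h3, sch_apply hf])
      (fun x => by rw [sch_apply (dc_star h3), sch_apply h3])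
      (by rwa [sch_coe hf, sch_coe h3]), usc_TvZ hg h1 h2 hL, inner_smul_right, ev, sch_coe hf]

lemma limPZ (hg : GRPZ c) (hb : BASZ c) {g : P3 → ℝ} {ρ : ℝ → ℝ} (h1 : Tst g) (h2 : Tst ρ)
    (w : Completion D) :
    Tendsto (fun L : ℝ => inner ℂ (Usc c.Q L 1 (c.Tv (hk va va (pr g ρ)))) w) atTop (𝓝 0) :=
  wnZ hg hb (perp_TvZ hg _ _ (isTest_dc (dc_pr h1 h2))) w

lemma limMZ (hg : GRPZ c) (hb : BASZ c) {g : P3 → ℝ} {ρ : ℝ → ℝ} (h1 : Tst g) (h2 : Tst ρ)
    (w : Completion D) :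
    Tendsto (fun L : ℝ => inner ℂ w (Usc c.Q L 1 (c.Tv (hk va va (pr g ρ))))) atTop (𝓝 0) := by
  have := (Complex.continuous_conj.tendsto 0).comp (limPZ hg hb h1 h2 w)
  simpa only [Function.comp_def, inner_conj_symm, map_zero] using this

/-! ### geometry -/

/-- **Exact factorization** of the far part. -/
theorem far_facZ [Fact c.tp] (hg : GRPZ c) {κ : P3 → ℝ} (h1 : Tst κ) (h0 : (0 : P3) ∉ tsupport κ) (R b : ℝ) :
    ∃ (κp κm : P3 → ℝ) (A : ℝ), Tst κp ∧ Tst κm ∧ tsupport κp ⊆ tsupport κ ∧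
      tsupport κm ⊆ tsupport κ ∧ (∀ y, κ y = κp y + κm y) ∧ 0 < A ∧ ∀ L, A ≤ L →
      ∀ (ρ : ℝ → ℝ) (Ψ : V × V → ℂ), Tst ρ → tsupport ρ ⊆ Set.Icc (-b) b → Dc Ψ →
        tsupport Ψ ⊆ Metric.closedBall 0 R → (L : ℂ) * c.t0 (tri Ψ κ ρ L) =
          inner ℂ (Usc c.Q L 1 (c.Tv (hk va va (pr κp ρ)))) (wTT c.wp (sch Ψ)) +
          inner ℂ (wTT c.wm (sch fun z => star (Ψ z)))
            (Usc c.Q L 1 (c.Tv (hk va va (pr κm ρ)))) := by
  obtain ⟨κp, κm, A, a1, a2, a3, a4, a5, a6, a7⟩ := split h1 h0 R b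
  refine ⟨κp, κm, A, a1, a2, a3, a4, a5, a6, fun L hL ρ Ψ h2 h3 h4 h5 => ?_⟩
  have hL0 := a6.trans_le hL
  obtain ⟨b1, b2⟩ := a7 L hL ρ (legs Ψ) h3 fun y hy => norm_legs h5 hy
  rw [← triPZ hg a1 h2 h4 hL0 b1, ← triMZ hg a2 h2 h4 hL0 b2, ← mul_add, ← t0_addZ]
  congr 2
  ext z
  rw [SchwartzMap.add_apply, sch_apply (dc_tri h4 (dc_pr (tst_kL h1 hL0) h2)),
    sch_apply (dc_tri h4 (dc_pr (tst_kL a1 hL0) h2)),
    sch_apply (dc_tri h4 (dc_pr (tst_kL a2 hL0) h2))]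
  simp only [pr, kL, a5]
  push_cast
  ring

theorem far_thmZ [Fact c.tp] (hg : GRPZ c) (hb : BASZ c) : FARZ c where
  far κ ρ Ψ h1 h0 h2 h3 := by
    obtain ⟨R, hR⟩ := h3.2.isCompact.isBounded.subset_closedBall 0
    obtain ⟨b, hb'⟩ := h2.2.isCompact.isBounded.subset_closedBall 0
    obtain ⟨κp, κm, A, a1, a2, -, -, -, -, a7⟩ := far_facZ hg h1 h0 R b
    have := (limPZ hg hb a1 h2 (wTT c.wp (sch Ψ))).add
      (limMZ hg hb a2 h2 (wTT c.wm (sch fun z => star (Ψ z))))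
    rw [add_zero] at this
    refine this.congr' ?_
    filter_upwards [eventually_ge_atTop A] with L hL
    refine (a7 L hL ρ Ψ h2 ?_ h3 hR).symm
    rwa [Real.closedBall_eq_Icc, zero_sub, zero_add] at hb'
  side u0 κ ρ Ψ h1 h2 h3 h4 h5 := by
    rcases h5 with h5 | h5
    · refine (limPZ hg hb h1 h2 (wTT c.wp (sch Ψ))).congr' ?_
      filter_upwards [eventually_gt_atTop (0 : ℝ)] with L hL
      refine (triPZ hg h1 h2 h3 hL (late_iff.2 fun x hx y hy _ a2 => ?_)).symm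
      have b1 := (h4 (tsupport_pr _ _ hx).2).1
      rcases hy with ⟨z, hz, rfl⟩ | ⟨z, hz, rfl⟩
      · linarith [(h5 hz).1]
      · linarith [(h5 hz).2]
    · refine (limMZ hg hb h1 h2 (wTT c.wm (sch fun z => star (Ψ z)))).congr' ?_
      filter_upwards [eventually_gt_atTop (0 : ℝ)] with L hL
      refine (triMZ hg h1 h2 h3 hL (late_iff.2 fun y hy x hx _ a2 => ?_)).symm
      have b1 := (h4 (tsupport_pr _ _ hx).2).2
      rcases hy with ⟨z, hz, rfl⟩ | ⟨z, hz, rfl⟩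
      · linarith [(h5 hz).1]
      · linarith [(h5 hz).2]

end Far

theorem far_rowZ {D : Type*} [NormedAddCommGroup D] [InnerProductSpace ℂ D] [GrD D] (c : CtxZ D) [Fact c.tp] :
    T3Z c → FARZ c := fun h => Far.far_thmZ h.grp h.bas

end

end Vale.Agent.P352X
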