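import Vale.Agent.P352Z.P352X.R.BP.C

open Vale.Agent.P352G

/-!
# P352X, row BP for `a0 = 0`
-/

set_option linter.all false

open MeasureTheory Filter Topology Set
open scoped SchwartzMap ComplexConjugate ContDiff

namespace Vale.Agent.P352X

open Vale.Agent.P352 Vale.Agent.P352.GF Vale.Agent.P352.BW Vale.Agent.P352.H246
open Vale.Agent.P352.H496 Vale.Agent.P352.H755 Vale.Agent.P352X.Ap Vale.Agent.P352X.BX
open Vale.Agent.P132 (jconj)
open UniformSpace (Completion)
open BPa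

variable {D : Type*} [NormedAddCommGroup D] [InnerProductSpace ℂ D] [GrD D]

theorem bp0_rowZ (c : CtxZ D) (t : T3Z c) (bb : BBZ c) : CK.BP0Z c := by
  intro u0 d0 y1 r1 X f1 κ ρ y hd hr hO hX hG hE hf hκ hρ sρ
  rcases le_or_gt u0 0 with hu | hu
  · have e : ρ = fun _ => 0 := funext fun s => image_eq_zero_of_notMem_tsupport fun k => by
      linarith [(sρ k).1, (sρ k).2]
    have e1 : ∀ g, pr g ρ = fun z => 0 * (0 : ℂ) := fun g => funext fun z => by simp [pr, e]
    have e2 : ∀ v, c.Tf (hk va va fun z => 0 * (0 : ℂ)) v = 0 := fun v => by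
      have := CK.Taa_eqZ (c := c) (sw_cmul 0 sw_zero) v
      simp only [Far.T_smulZ c _ _ 0 sw_zero, zero_smul, smul_zero, Finset.sum_const_zero] at this
      exact this
    simp only [e1, e2, Completion.coe_zero]
    simp [e]
  have s := CK.smv_rowZ c t
  have G := t.grp
  have j := t.jc
  obtain ⟨χ, x1, x2, x3, -⟩ := ex_step (show -d0 / 2 < d0 / 2 by linarith)
  have hχ : Stp d0 χ := ⟨x1, x2, x3⟩
  set K := fun u : ℝ => gen (c.Ky (tv y + u • vb)) (X c.Om) with hK
  have i1 : Integrable fun u => (ρ u : ℂ) • K u := by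
    have k : tsupport (fun u => (ρ u : ℂ) • K u) ⊆ tsupport ρ :=
      tsupp_of_zero fun u h => by simp [h]
    exact (((dc_cx hρ).1.continuous.continuousOn.smul ((CK.kp_rowZ c t s).shift y1 r1 u0 d0 X y hr
      hu hd hO hX hG).1).continuous_of_tsupport_subset isOpen_Ioo
      (k.trans sρ)).integrable_of_hasCompactSupport
      (hρ.2.isCompact.of_isClosed_subset (isClosed_tsupport _) k)
  have i2 : ∀ ψ, ∫ u, (ρ u : ℂ) * inner ℂ ψ (K u) = inner ℂ ψ (∫ u, (ρ u : ℂ) • K u) := fun ψ => by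
    simp only [← integral_inner i1, inner_smul_right]
  obtain ⟨C1, c1, l1⟩ := LpZ.op G hG
  obtain ⟨C2, c2, l2⟩ := LpZ.op G (s.adj X hG)
  have W : ∀ {O}, O ⊆ {z | be z < -u0 ∧ d0 < al z} → O ⊆ Wdg va vb 0 := fun h z hz =>
    ⟨by rw [sub_zero, md_va]; linarith [(h hz).1], by rw [sub_zero, md_vb]; linarith [(h hz).2]⟩
  have key : ∀ φ, In {z | be z < -u0 ∧ d0 < al z} φ → Tendsto (fun L =>
      OfZ c (X (c.J (c.Th φ))) (star X (c.J (c.Th (bar φ)))) ρ (fun q => χ q.1)
        fun q => wq y q * kL κ L q) atTop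
      (𝓝 (inner ℂ (c.J (c.Th (bar φ))) (∫ u, (ρ u : ℂ) • K u))) := fun φ hφ => by
    have z0 : c.Th (fun _ => 0) = 0 := by
      simpa using Cont.Th_addZ c (f := fun _ => 0) (g := fun _ => 0) sw_zero sw_zero
    refine Ap.in_ind (P := fun φ => Tendsto (fun L =>
      OfZ c (X (c.J (c.Th φ))) (star X (c.J (c.Th (bar φ)))) ρ (fun q => χ q.1)
        fun q => wq y q * kL κ L q) atTop
      (𝓝 (inner ℂ (c.J (c.Th (bar φ))) (∫ u, (ρ u : ℂ) • K u)))) ?_ (fun f f' a b d e => ?_)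
      (fun z hz => ?_) hφ
    · rw [show bar (fun _ => 0) = fun _ => 0 from funext fun _ => star_zero _]
      simp [z0, OfZ]
    · rw [show bar (fun x => f x + f' x) = fun x => bar f x + bar f' x from
        funext fun _ => star_add _ _, Cont.Th_addZ c a.1 b.1,
        Cont.Th_addZ c (Ap.test_bar a.1) (Ap.test_bar b.1)]
      simpa only [map_add, Of_vecZ, inner_add_left] using d.add e
    obtain ⟨r2, hr2, n2, hO2⟩ := ex_dc ((isOpen_lt cont_be continuous_const).inter
      (isOpen_lt continuous_const cont_al)) hz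
    refine ⟨_, n2, fun f hf => ?_⟩
    set R := 2 * (‖y1‖ + 3 * |r1|) + 2 * (‖z‖ + 3 * |r2|) + u0 with hR
    have p1 : 0 ≤ 2 * (‖y1‖ + 3 * |r1|) := by positivity
    have p2 : 0 ≤ 2 * (‖z‖ + 3 * |r2|) := by positivity
    have R0 : 0 < R := by linarith
    obtain ⟨C, A, c0, h⟩ := ubZ t R0 hχ hκ hρ
      (fun s k => ⟨by linarith [(sρ k).1], by linarith [(sρ k).2]⟩) y
    refine limZ c0 h fun ε hε => ?_
    have p : 0 < C1 + C2 + 1 := by positivity
    obtain ⟨Y, y1', y2, yE, y3, y4⟩ := apxZ t (Ap.in_mono hf inter_subset_left) (div_pos hε p)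
    have q := div_pos hε p
    have q' : (C1 + C2 + 1) * (ε / (C1 + C2 + 1)) = ε := mul_div_cancel₀ _ p.ne'
    have cm : jconj c.J Y (X c.Om) = X (c.J (Y c.Om)) := by
      rw [← comm_apply (c.N_mono (W hO) X hX) (c.E.J_mem Y (c.N_mono (W hO2) Y y1')),
        P132.jconj_apply, c.J_Om]
    refine ⟨jconj c.J Y (X c.Om), star X (star (jconj c.J Y) c.Om), star (jconj c.J Y) c.Om,
      ?_, ?_, ?_, ?_, ?_⟩
    · have := LocZ.com G j R0 (G0.ev_mul ⟨G.g2, G.gs⟩ (j.algE va vb 0 G.na G.nb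
        (by rw [G.nab]; exact one_pos) Y (c.N_mono (W hO2) Y y1') yE).2 hE)
        (((LocZ.of y1' (dc_Bx (by linarith))).J j yE).mul (LocZ.of hX (dc_Bx (by linarith))))
      rwa [star_mul] at this
    · rw [cm, ← map_sub, ← map_sub]
      exact (l1 _ _ (y3.J G j)).mono (by nlinarith)
    · rw [star_YZ, ← map_sub, ← map_sub]
      exact (l2 _ _ (y4.J G j)).mono (by nlinarith)
    · rw [star_YZ, ← map_sub]
      exact (y4.J G j).1.trans (by nlinarith)
    · have := bb u0 d0 y1 r1 z r2 X Y χ κ ρ y hd hr hr2 hO hO2 hX hG y1' y2 hE yE x1 x2 x3 hκ hρ sρ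
      simp only [om2_eqZ] at this
      exact i2 _ ▸ this
  have h1 := Ap.in_bar (in_conf0 conf_jr hf)
  have := key _ (Ap.in_mono h1 fun z a => ⟨by simpa [lt_neg] using a.1, by simpa using a.2⟩)
  rw [Cont.J_ThZ j h1.1, Cont.J_ThZ j (Ap.test_bar h1.1)] at this
  simp only [bar, jr_jr, star_star] at this
  rw [show bar (fun z => star (f1 z)) = f1 from Ap.bar_bar f1] at this
  rw [i2]
  refine this.congr' ?_
  filter_upwards [eventually_gt_atTop (0 : ℝ)] with L hL
  exact (identZ t.toT2Z.toT1Z hu hd hO hX hf hχ (cs_mul_l (smooth_wq y) (tst_kL hκ.1 hL)) hρ sρ).symm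

end Vale.Agent.P352X
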