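import Vale.Agent.P352X.R.CH
import Vale.Agent.P352Z.P352X.R.GRP.C

open Vale.Agent.P352G

/-!
# P352X, row CH: charges on general surfaces
-/

set_option linter.all false

open MeasureTheory Filter Topology Set
open scoped SchwartzMap ComplexConjugate ContDiff

namespace Vale.Agent.P352X

open Vale.Agent.P352 Vale.Agent.P352.GF Vale.Agent.P352.H755 Vale.Agent.P352.H15

noncomputable section

namespace Chx

open Ap

variable {D : Type*} [NormedAddCommGroup D] [InnerProductSpace ℂ D] [GrD D] {Q : Theory D}
  {T : Ix → Ix → Fld D} {X : V → V}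

end Chx

variable {D : Type*} [NormedAddCommGroup D] [InnerProductSpace ℂ D] [GrD D]

theorem ch_rowZ (c : CtxZ D) : T0Z c → CHZ c := fun _ _ _ _ _ _ _ v w hK hc hX hB hf hs =>
  Chx.main c.hT c.hP v w hK hc hX hB hf hs

end

end Vale.Agent.P352X
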