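import Vale.Agent.P352X.R.CONT
import Vale.Agent.P352Z.P352X.R.CONT.B

open Vale.Agent.P352G

/-!
# P352X, row CONT: the faces (helper34)
-/

set_option linter.all false

open MeasureTheory Filter Topology
open scoped SchwartzMap ComplexConjugate ENNReal ContDiff LineDeriv

namespace Vale.Agent.P352X

open Vale.Agent.P352 Vale.Agent.P352.GF Vale.Agent.P352.BW Vale.Agent.P352.H246
open Vale.Agent.P352.H496 Vale.Agent.P352.H755 Vale.Agent.P352.H15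
open UniformSpace (Completion)
open Far

noncomputable section

namespace Cont

variable {D : Type*} [NormedAddCommGroup D] [InnerProductSpace ℂ D] [GrD D] {c : CtxZ D}

/-- the norm of the trace on the vacuum -/
theorem Th_bdZ (h : ELLZ c) : ∃ C : ℝ, 0 ≤ C ∧ ∀ F : Sch,
    ‖c.Th (ev F)‖ ^ 2 ≤ C * ∫ z, ‖(∂_{va} (∂_{vb} F) : Sch) z‖ ^ 2 := by
  obtain ⟨ell, c0, E⟩ := h
  have h0 := E.nonneg
  refine ⟨36 * c0 * (2 * Real.pi) ^ 4, by positivity, fun F => ?_⟩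
  set G : Sch := ∂_{va} (∂_{vb} F)
  have e : ∀ p, FT.gft mdL G p = -((al p * be p : ℝ) : ℂ) * ft (ev F) p := fun p => by
    have h1 := FT.gft_deriv_sch (B := mdL) (∂_{vb} F : Sch) va p
    have h2 := FT.gft_deriv_sch (B := mdL) F vb p
    refine h1.trans ((congrArg _ h2).trans ?_)
    change _ = _ * FT.gft mdL F p
    simp only [mdL_apply, md_va', md_vb']
    push_cast
    linear_combination (al p * be p * FT.gft mdL F p) * Complex.I_mul_I
  have b : ∀ᵐ p ∂volume.restrict Fc, ‖(mu p : ℂ) * ft (ev F) p‖ ≤ 2 * ‖FT.gft mdL G p‖ := by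
    filter_upwards [ae_restrict_mem meas_Fc] with p hp
    have h1 := ((mem_Fc p).1 hp).2
    have h2 : mu p ≤ 2 * (al p * be p) := by linarith [mu_eq p, d2_nonneg (tx p)]
    rw [e, norm_mul, norm_mul, norm_neg, Complex.norm_real, Complex.norm_real, ← mul_assoc,
      Real.norm_of_nonneg h1.le, Real.norm_of_nonneg (by linarith)]
    exact mul_le_mul_of_nonneg_right h2 (norm_nonneg _)
  have mG : MemLp (FT.gft mdL G) 2 volume := dat.memLp G 2 volume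
  have mψ : MemLp (fun p => (mu p : ℂ) * ft (ev F) p) 2 (volume.restrict Fc) :=
    (mG.restrict Fc).of_le_mul (((Complex.continuous_ofReal.comp cont_mu).mul
      (dat.smooth F).continuous).aestronglyMeasurable) b
  have n := E.inn _ _ mψ mψ
  simp only [inner_self_eq_norm_sq_to_K, Complex.conj_mul', ← Complex.ofReal_pow,
    integral_complex_ofReal, ← Complex.ofReal_mul, Complex.coe_algebraMap,
    Complex.ofReal_inj] at n
  have iG : Integrable fun p => ‖FT.gft mdL G p‖ ^ 2 := mG.integrable_norm_pow two_ne_zero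
  have i1 : ∫ p in Fc, ‖(mu p : ℂ) * ft (ev F) p‖ ^ 2 ≤ ∫ p in Fc, 4 * ‖FT.gft mdL G p‖ ^ 2 :=
    integral_mono_ae (mψ.integrable_norm_pow two_ne_zero) (iG.const_mul 4).restrict
      (b.mono fun p hp => (pow_le_pow_left₀ (norm_nonneg _) hp 2).trans_eq (by ring))
  have i2 : ∫ p in Fc, 4 * ‖FT.gft mdL G p‖ ^ 2 ≤ ∫ p, 4 * ‖FT.gft mdL G p‖ ^ 2 :=
    setIntegral_le_integral (iG.const_mul 4) (.of_forall fun p => by positivity)
  have i3 : ∫ p, ‖FT.gft mdL G p‖ ^ 2 = (2 * Real.pi) ^ 4 * ∫ z, ‖G z‖ ^ 2 :=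
    dat.plancherel_norm G
  rw [integral_const_mul (μ := volume), i3] at i2
  rw [E.th _ ⟨F, rfl⟩, norm_smul, mul_pow, n]
  have := mul_le_mul_of_nonneg_left (i1.trans i2) h0
  simp only [norm_neg, Complex.norm_ofNat]
  linarith

/-- `‖Θ(f φ) Ω‖ ≤ C ‖∂_al f‖ ‖φ'‖` -/
theorem Th_prZ (h : ELLZ c) : ∃ C : ℝ, 0 ≤ C ∧ ∀ (f : P3 → ℝ) (φ : ℝ → ℝ), Tst f → Tst φ →
    ‖c.Th (pr f φ)‖ ^ 2 ≤ C * ((∫ y, fderiv ℝ f y (1, 0) ^ 2) * ∫ t, deriv φ t ^ 2) := by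
  obtain ⟨C, C0, hC⟩ := Th_bdZ h
  refine ⟨C, C0, fun f φ hf hφ => ?_⟩
  have hd := dc_pr hf hφ
  have hφ' : Tst (deriv φ) := hφ.fd 1
  have e1 : ((∂_{vb} (sch (pr f φ)) : Sch) : V → ℂ) = pr f (deriv φ) := by
    funext z
    rw [SchwartzMap.lineDerivOp_apply_eq_fderiv, sch_coe hd, fderiv_pr hf hφ,
      show pl vb = 0 from Prod.ext al_vb tx_vb]
    simp [pr]
  have := hC (sch (pr f φ))
  rw [ev, sch_coe hd] at this
  refine this.trans_eq ?_
  rw [← integral_pl_be]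
  congr 2 with z
  rw [SchwartzMap.lineDerivOp_apply_eq_fderiv, e1, fderiv_pr hf hφ',
    show pl va = (1, 0) from Prod.ext al_va tx_va, be_va, mul_zero, mul_zero, add_zero,
    Complex.norm_real, Real.norm_eq_abs, sq_abs, mul_pow]

theorem smallZ (h : ELLZ c) {f : P3 → ℝ} {θ1 θ : ℝ → ℝ} (hf : Tst f) (h1 : Tst θ1) (hθ : Bump θ) :
    Tendsto (fun δ : ℝ => (δ : ℂ) • c.Th (pr f (abv θ1 θ δ))) (𝓝[>] 0) (𝓝 0) := by
  obtain ⟨C, C0, hC⟩ := Th_prZ h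
  have l := ((lim_abv h1 hθ).const_mul (C * ∫ y, fderiv ℝ f y (1, 0) ^ 2)).sqrt
  rw [mul_zero, Real.sqrt_zero] at l
  refine squeeze_zero_norm' ?_ l
  filter_upwards [self_mem_nhdsWithin] with δ hδ
  refine Real.le_sqrt_of_sq_le ?_
  simp only [norm_smul, mul_pow, integral_const_mul, Complex.norm_real, Real.norm_eq_abs, sq_abs]
  refine (mul_le_mul_of_nonneg_left (hC f _ hf (tst_abv h1 hθ hδ)) (sq_nonneg δ)).trans_eq ?_
  ring

theorem lo2Z (h : ELLZ c) {f g : P3 → ℝ} {θ1 θ φ : ℝ → ℝ} (hf : Tst f) (h1 : Tst θ1) (hθ : Bump θ) :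
    Tendsto (fun δ : ℝ => (δ : ℂ) * c.PF (pr f (abv θ1 θ δ)) (pr g φ)) (𝓝[>] 0) (𝓝 0) := by
  have k : ∀ {f : P3 → ℝ}, Tst f → ∀ v : Completion D,
      Tendsto (fun δ : ℝ => (δ : ℂ) * inner ℂ (c.Th (pr f (abv θ1 θ δ))) v) (𝓝[>] 0) (𝓝 0) :=
    fun hf v => by
      simpa only [inner_smul_left, Complex.conj_ofReal, inner_zero_left] using
        (smallZ h hf h1 hθ).inner (𝕜 := ℂ) (tendsto_const_nhds (x := v))
  simp only [PF_prZ, Fin.sum_univ_two, mul_add, mul_sub]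
  simpa only [add_zero, sub_zero] using ((k hf _).sub (((k (tst_xi hf 0) _).add (k hf _)).add
    ((k (tst_xi hf 1) _).add (k hf _)))).add ((k (tst_xi hf 0) _).add (k (tst_xi hf 1) _))

end Cont

theorem cont_rowZ {D : Type*} [NormedAddCommGroup D] [InnerProductSpace ℂ D] [GrD D] (c : CtxZ D) [Fact c.tp] :
    T3Z c → FARZ c → CONMZ c → CONKZ c → CONTZ c := fun h hF hM hK =>
  ⟨fun κ f g ρ θ1 θ φ hκ hf hg hρ hρ' h1 hθ hφ hφ' =>
    ⟨Cont.lo1Z hF hM hK hκ hf hg hρ hρ' h1 hθ hφ hφ', Cont.lo2Z h.ell hf h1 hθ⟩,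
  fun κ f g ρ θ1 θ φ hκ hf hg hρ hρ' h1 hθ hφ hφ' =>
    ⟨Cont.hi1Z h.toT2Z hF hM hK hκ hf hg hρ hρ' h1 hθ hφ hφ',
      (Cont.lo2Z h.ell (Cont.tst_mj hf) (Cont.tst_ng h1) hθ).congr' (by
        filter_upwards [self_mem_nhdsWithin] with δ hδ
        rw [Cont.PF_hiZ h.toT2Z hf hg h1 hθ hφ hφ' hδ])⟩⟩

end

end Vale.Agent.P352X
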