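import Vale.Agent.P352X.R.GEN
import Vale.Agent.P352Z.P352X.R.GEN.A

open Vale.Agent.P352G

/-!
# P352X: the row GEN
-/

set_option linter.all false

noncomputable section

open Filter Topology
open scoped SchwartzMap ContDiff

namespace Vale.Agent.P352X

open Vale.Agent.P352 Vale.Agent.P352.GF Vale.Agent.P352.BW Vale.Agent.P352.H246
open Vale.Agent.P352.H496 Vale.Agent.P352.H755 Vale.Agent.P352.H15
open H746 (Crv vf)
open H148 (snS)
open UniformSpace (Completion)
open Complex (I)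
open Br

namespace Gen

variable {D : Type*} [NormedAddCommGroup D] [InnerProductSpace ℂ D] [GrD D] {c : CtxZ D}

theorem fl_utZ (c : CtxZ D) (y : V) : FlZ c (fun t => Ut c.Q (t • y)) fun _ => y :=
  ⟨fun _ => GF.one, fun t => t • y, 0, y, ⟨rfl, rfl, zero_smul _ _, fun _ => one_pos,
    fun _ => H496.isLor_one, hasDerivAt_const _ _, fun _ _ => hasDerivAt_const _ _, fun n => by
      simpa using (hasDerivAt_id (0 : ℝ)).mul_const (y n)⟩, fun _ => rfl, fun z n => by simp⟩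

theorem fl_boZ (g : GRPZ c) : FlZ c (Bo c.Q) fun z => al z • va - be z • vb := by
  refine fl_linZ (σ := fun t => scp (Real.exp t) (Real.exp (-t)))
    (fun t => by rw [Bo, Usc, sq1]) (fun t => ?_) (fun z => by simp [scp, pt_self]) fun z => ?_
  · have := g.lsc _ _ (Real.exp_pos t) (Real.exp_pos (-t))
    rwa [sq1] at this
  · simp only [scp, sq1]
    convert der_pt ((Real.hasDerivAt_exp 0).mul_const _) ((hasDerivAt_neg (0 : ℝ)).exp.mul_const _)
      (hasDerivAt_const _ _) using 1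
    simp [← tvL_apply, sub_eq_add_neg]

theorem fl_gaZ (g : GRPZ c) (w : R2) :
    FlZ c (fun t => Ga c.Q (t • w)) fun z => d2 w (tx z) • va + be z • tv w := by
  refine fl_linZ (σ := fun t => gap (t • w)) (fun t => rfl) (fun t => g.lga _)
    (fun z => by simp [gap, d2, pt_self]) fun z => ?_
  have h := hasDerivAt_id' (0 : ℝ)
  have k := fun j => h.mul_const (w j)
  simp only [gap, d2, Pi.smul_apply, smul_eq_mul]
  convert der_pt (((((k 0).mul_const _).fun_add ((k 1).mul_const _)).const_add _).fun_add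
    (((((k 0).fun_mul (k 0)).fun_add ((k 1).fun_mul (k 1))).mul_const _).div_const 2))
    (hasDerivAt_const _ _) (((h.smul_const w).fun_const_smul (be z)).const_add _) using 1
  simp [tv_smul']

theorem fl_miZ (g : GRPZ c) (i : Fin 2) : FlZ c (Mi c.Q i) fun z => tx z i • va + be z • ex i := by
  have := fl_gaZ g (e2 i)
  simp only [d2_e2] at this
  exact this

theorem fl_gbZ (g : GRPZ c) : FlZ c (Gb c.Q) fun z => tx z 0 • vb + al z • ex 0 := by
  refine fl_linZ (σ := gbp) (fun t => rfl) g.lgb (fun z => by simp [gbp, pt_self]) fun z => ?_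
  have h := hasDerivAt_id' (0 : ℝ)
  simp only [gbp]
  convert der_pt (hasDerivAt_const _ _) (((h.mul_const _).const_add _).fun_add
    (((h.fun_pow 2).mul_const _).div_const 2)) (((h.mul_const _).smul_const _).const_add _) using 1
  simp [tv_smul', ex]

/-- the group law of the group generated by `B`, `P_b`, `M^b` -/
theorem gq_mulZ (g : GRPZ c) (q r : ℝ × ℝ × ℝ) : c.gq q * c.gq r =
    c.gq (q.1 + r.1, Real.exp r.1 * q.2.1 + r.2.1, Real.exp r.1 * q.2.2 + r.2.2) := by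
  obtain ⟨t, u, s⟩ := q
  obtain ⟨τ, υ, σ⟩ := r
  have p := Real.exp_pos τ
  have p' := Real.exp_pos (-τ)
  have x : ∀ y, Real.exp (-τ) * (Real.exp τ * y) = y := fun y => by
    rw [← mul_assoc, ← Real.exp_add, neg_add_cancel, Real.exp_zero, one_mul]
  have b : ∀ y : ℝ, y • vb = pt 0 y 0 := fun y => by simp [pt_eq, ← tvL_apply]
  have e1 : Pb c.Q u * Bo c.Q τ = Bo c.Q τ * Pb c.Q (Real.exp τ * u) := by
    rw [Bo, Pb, Pb, g.sc_ut _ _ _ p p', b, b, scp, al_pt', be_pt', tx_pt', x, mul_zero, smul_zero]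
  have e2 : Gb c.Q s * Bo c.Q τ = Bo c.Q τ * Gb c.Q (Real.exp τ * s) := by
    rw [Bo, g.sc_gb _ _ _ p p', ← Real.exp_sub, show -τ - τ = -τ + -τ by ring, Real.exp_add,
      Real.sqrt_mul_self p'.le, x]
  have e3 : ∀ y, Gb c.Q y * Pb c.Q υ = Pb c.Q υ * Gb c.Q y := fun y => by
    rw [Pb, g.gb_ut, b, gbp, al_pt', be_pt', tx_pt']
    simp
  have e4 : Bo c.Q (t + τ) = Bo c.Q t * Bo c.Q τ := by
    rw [Bo, Bo, Bo, ← g.sc _ _ _ _ (Real.exp_pos _) (Real.exp_pos _) p p', neg_add, Real.exp_add,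
      Real.exp_add]
  simp only [CtxZ.gq, e4, g.gb, Pb, add_smul, g.ut]
  simp only [Pb] at e1 e3
  calc _ = Bo c.Q t * (Ut c.Q (u • vb) * (Gb c.Q s * Bo c.Q τ)) * (Ut c.Q (υ • vb) * Gb c.Q σ) := by
        simp only [mul_assoc]
    _ = Bo c.Q t * Bo c.Q τ * Ut c.Q ((Real.exp τ * u) • vb) *
        (Gb c.Q (Real.exp τ * s) * Ut c.Q (υ • vb)) * Gb c.Q σ := by
        rw [e2, ← mul_assoc (Ut c.Q _), e1]
        simp only [mul_assoc]
    _ = _ := by
        rw [e3]
        simp only [mul_assoc]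

theorem gq_derZ (g : GRPZ c) (v : D) : ∃ (w : Fin 3 → D) (A : ℝ × ℝ × ℝ →L[ℝ] Completion D),
    HasFDerivAt (fun q => c.gq q v) A 0 ∧
      ∀ y, A y = y.1 • (w 0 : Completion D) + y.2.1 • (w 1 : Completion D) + y.2.2 • (w 2 : D) :=
  have B := fl_boZ g
  have P := fl_utZ c vb
  have G := fl_gbZ g
  ⟨![_, _, _], prod3 (B.norm g) (P.norm g) (B.cont g) (P.cont g) (B.zero g) (P.zero g) (G.zero g)
    (B.dom g v) (P.dom g v) (G.dom g v)⟩

theorem smZ (g : GRPZ c) (v : D) : ContDiff ℝ ∞ fun q => c.gq q (v : Completion D) := by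
  set ψ := fun q r : ℝ × ℝ × ℝ => (r.1 - q.1, r.2.1 - Real.exp (r.1 - q.1) * q.2.1,
    r.2.2 - Real.exp (r.1 - q.1) * q.2.2)
  have s : ContDiff ℝ ∞ ψ.uncurry := by
    unfold Function.uncurry ψ
    fun_prop
  have s' : ∀ y, ContDiff ℝ ∞ fun q => fderiv ℝ (ψ q) q y := fun y =>
    (s.fderiv contDiff_id le_rfl).clm_apply contDiff_const
  have key : ∀ v : D, ∃ w : Fin 3 → D, ∀ q, ∃ A, HasFDerivAt (fun q => c.gq q v) A q ∧ ∀ y,
      A y = (fderiv ℝ (ψ q) q y).1 • c.gq q (w 0) + (fderiv ℝ (ψ q) q y).2.1 • c.gq q (w 1) +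
        (fderiv ℝ (ψ q) q y).2.2 • c.gq q (w 2) := fun v => by
    obtain ⟨w, A, h, e⟩ := gq_derZ g v
    refine ⟨w, fun q => ⟨_, ((((c.gq q).restrictScalars ℝ).hasFDerivAt.comp q
      (HasFDerivAt.comp q (g := fun q => c.gq q v) (f := ψ q) ((show ψ q q = 0 by simp [ψ]) ▸ h)
        (((s.comp (contDiff_const.prodMk contDiff_id)).differentiable (by simp))
          q).hasFDerivAt)).congr_of_eventuallyEq (.of_forall fun r => ?_)), fun y => ?_⟩⟩
    · have := congrArg (· (v : Completion D)) (gq_mulZ g q (ψ q r))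
      simpa [ψ] using this.symm
    · simp [e, Function.comp_def]
  rw [contDiff_infty]
  intro n
  induction n generalizing v with
  | zero =>
    obtain ⟨w, h⟩ := key v
    exact contDiff_zero.2 (continuous_iff_continuousAt.2 fun q => (h q).choose_spec.1.continuousAt)
  | succ n ih =>
    obtain ⟨w, h⟩ := key v
    choose A h e using h
    rw [Nat.cast_succ, contDiff_succ_iff_fderiv_apply]
    refine ⟨fun q => (h q).differentiableAt, by simp, fun y => ?_⟩
    have t : ContDiff ℝ n fun q => fderiv ℝ (ψ q) q y := (s' y).of_le (by exact_mod_cast le_top)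
    simp only [fun q => (h q).fderiv, e]
    exact ((t.fst.smul (ih _)).add (t.snd.fst.smul (ih _))).add (t.snd.snd.smul (ih _))

theorem bdZ (c : CtxZ D) (v : D) : ∃ (m : ℕ) (C : ℝ), 0 ≤ C ∧ ∀ h k (f : Sch),
    ‖c.Tf (hk h k (ev f)) v‖ ≤ C * ‖h‖ * ‖k‖ * sn m f := by
  set L := ContinuousLinearMap.pi fun i : I2 => (tlZ c v i.1 i.2).comp ofSch
  obtain ⟨m, C, C0, hC⟩ := Lie.clm ((normSeminorm ℂ _).comp L.toLinearMap) L.continuous.norm
  refine ⟨m, 16 * C, by positivity, fun h k f => ?_⟩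
  have e : ∀ i, |eta i| = 1 := fun i => by unfold eta; split_ifs <;> simp
  rw [← Completion.norm_coe, show ev f = fl (ofSch f) from rfl, ← th_applyZ, thZ]
  simp only [ContinuousLinearMap.sum_apply, ContinuousLinearMap.smul_apply]
  refine (norm_sum_le_of_le _ fun i _ => norm_sum_le_of_le (n := fun _ =>
    ‖h‖ * ‖k‖ * (C * sn m f)) _ fun j _ => ?_).trans_eq (by simp; ring)
  rw [norm_smul, Complex.norm_real, Real.norm_eq_abs, abs_mul, abs_mul, abs_mul, e, e, one_mul,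
    one_mul]
  gcongr
  exacts [norm_le_pi_norm h i, norm_le_pi_norm k j, (norm_le_pi_norm (L f) (i, j)).trans (hC f)]

theorem bd2Z (c : CtxZ D) (v : D) : ∃ (m : ℕ) (C : ℝ), ∀ i j k l (f g : Sch),
    ‖c.T i j (ev f) (c.T k l (ev g) v)‖ ≤ C * sn m f * sn m g := by
  choose K n K0 h using fun i : I2 × I2 => (odZ c i.1.1 i.1.2).joint (odZ c i.2.1 i.2.2) v
  obtain ⟨m, C, C0, hC⟩ := Lie.clm ((snS (Finset.univ.sup n)).comp ofSch.toLinearMap)
    ((H148.cont_snS _).comp ofSch.continuous)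
  refine ⟨m, (∑ i, K i) * C * C, fun i j k l f g => (h ((i, j), k, l) (ofSch f) (ofSch g)).trans ?_⟩
  have e := fun f => (H148.snS_mono (Finset.le_sup (f := n) (Finset.mem_univ ((i, j), k, l)))
    (ofSch f)).trans (hC f)
  have := Finset.single_le_sum (fun i _ => K0 i) (Finset.mem_univ ((i, j), k, l))
  have := Finset.sum_nonneg fun i (_ : i ∈ Finset.univ) => K0 i
  have := Lie.sn_nonneg m f
  calc _ ≤ (∑ i, K i) * (C * sn m f) * (C * sn m g) := by
        gcongr
        exacts [e f, e g]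
    _ = _ := by ring

theorem kyZ (g : GRPZ c) (y : R2) {ψ} (h : Dm c.SK ψ) (hm : ∀ i, Dm (Mi c.Q i) ψ)
    (hp : Dm (Pa c.Q) ψ) : Gn (c.Ky (tv y)) ψ (gen c.SK ψ -
      ∑ i, ((2 * y i : ℝ) : ℂ) • gen (Mi c.Q i) ψ + (d2 y y : ℝ) • gen (Pa c.Q) ψ) := by
  have p : ∀ {W X φ φ' k} (r : ℝ), FlZ c W X → HasDerivAt φ φ' 0 → φ 0 = ψ → Gn W ψ k →
      HasDerivAt (fun t => W (t * r) (φ t)) (r • I • k + φ') 0 ∧ W (0 * r) (φ 0) = ψ :=
    fun {W X φ φ' k} r K d e q => ⟨prod1 (W := fun t => W (t * r)) (fun t => K.norm g _)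
      (fun z => (K.cont g z).comp_of_eq (by fun_prop) (zero_mul r))
      (by rw [zero_mul, K.zero g]) d
      (e ▸ HasDerivAt.scomp_of_eq (0 : ℝ) q (hasDerivAt_mul_const r) (zero_mul r).symm),
      by rw [zero_mul, K.zero g, e]; rfl⟩
  have a := p (-(2 * y 1)) (fl_miZ g 1) h.gn' (by rw [CtxZ.SK, c.hS.zero _ g.na]; rfl) (hm 1).gn'
  have b := p (-(2 * y 0)) (fl_miZ g 0) a.1 a.2 (hm 0).gn'
  have d := (p (d2 y y) (fl_utZ c va) b.1 b.2 hp.gn').1
  refine (d.congr_of_eventuallyEq (.of_forall fun t => ?_)).congr_deriv ?_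
  · have e := g.S_ut t (-y)
    rw [← tvL_apply, map_neg, tvL_apply] at e
    simp only [CtxZ.Ky]
    rw [mul_assoc, e, ← mul_assoc, ← mul_assoc, ← g.ut, add_neg_cancel_left,
      show (2 * t) • -y = (t * -(2 * y 0)) • e2 0 + (t * -(2 * y 1)) • e2 1 by
        funext i
        fin_cases i <;> simp [e2] <;> ring, g.ga, show d2 (-y) (-y) = d2 y y by simp [d2]]
    rfl
  · simp only [Fin.sum_univ_two, ← Complex.coe_smul]
    module

end Gen

open Gen

theorem gen_rowZ {D : Type*} [NormedAddCommGroup D] [InnerProductSpace ℂ D] [GrD D] (c : CtxZ D)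
    (t : T0Z c) : GENZ c where
  ut y h k f hf := by
    have z : ∀ h k, h = 0 ∨ k = 0 → c.Tv (hk h k f) = 0 := fun h k e => by
      obtain ⟨F, rfl⟩ := exists_fl hf
      rcases e with rfl | rfl <;> simp [CtxZ.Tv, ← th_applyZ, thZ]
    simpa only [vf_ut, sub_self, z _ _ (.inl rfl), z _ _ (.inr rfl), sub_zero] using
      (fl_utZ c y).tv t.grp h k hf
  bo h k f hf := by
    simpa only [vf_bo, al0, be0, zero_smul, sub_zero] using (fl_boZ t.grp).tv t.grp h k hf
  mi i h k f hf := by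
    simpa only [vf_mi, tx0, be0, Pi.zero_apply, zero_smul, add_zero, sub_zero] using
      (fl_miZ t.grp i).tv t.grp h k hf
  gb h k f hf := by
    simpa only [vf_gb, tx0, al0, Pi.zero_apply, zero_smul, add_zero, sub_zero] using
      (fl_gbZ t.grp).tv t.grp h k hf
  uth y f hf := (fl_utZ c y).tr t.grp hf
  both f hf := vf_bo f ▸ (fl_boZ t.grp).tr t.grp hf
  mith i f hf := vf_mi i f ▸ (fl_miZ t.grp i).tr t.grp hf
  gbth f hf := vf_gb f ▸ (fl_gbZ t.grp).tr t.grp hf
  utl y f hf := (fl_utZ c y).pot t.grp hf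
  bol f hf := vf_bo f ▸ (fl_boZ t.grp).pot t.grp hf
  mil i f hf := vf_mi i f ▸ (fl_miZ t.grp i).pot t.grp hf
  sm := smZ t.grp
  bd := let ⟨m, C, _, h⟩ := bdZ c c.Q.vac
    ⟨m, C, fun a k f => (Completion.norm_coe _).trans_le (h a k f)⟩
  bd2 := bd2Z c
  ky y _ := kyZ t.grp y

end Vale.Agent.P352X
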