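import Vale.Agent.P352X.R.KT
import Vale.Agent.P352Z.P352X.R.BAS

open Vale.Agent.P352G

/-!
# P352X: row KT
-/

noncomputable section

open MeasureTheory Filter Topology Complex Set
open scoped ComplexConjugate

namespace Vale.Agent.P352X

open Vale.Agent.P352 Vale.Agent.P352.GF Vale.Agent.P352.BW
open Vale.Agent.P352.H496 Vale.Agent.P352.H755 Vale.Agent.P352.H15
open SN (BC Calc Bd IsPair URep)
open UniformSpace (Completion)
open Br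

namespace Br

section grp

variable {X H : Type*} [MeasurableSpace X] [NormedAddCommGroup H] [InnerProductSpace ℂ H]
  [CompleteSpace H] (C : Calc X H) {r r' : X → ℝ}

end grp

variable {D : Type*} [NormedAddCommGroup D] [InnerProductSpace ℂ D] [GrD D] (c : CtxZ D)

lemma S0_ExZ (t : ℝ) : c.S0 t = Ex c.kc.toCalc Kin.k0 t := ContinuousLinearMap.ext (c.S0_Phi t)

lemma Sk_ExZ (t : ℝ) : c.Sk t = Ex c.kc.toCalc Kin.kt t := ContinuousLinearMap.ext (c.Sk_Phi t)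

lemma ae_ktZ (v : Completion D) : ∀ᵐ q ∂c.kc.nu v, 0 ≤ Kin.kt q :=
  Kin.ae_kt_nonnegZ c.kc c.bR c.hS fr c.bV c.kpos v

/-- covariance of the joint calculus under the scalings -/
lemma sc_kcZ {r s : ℝ} (hr : 0 < r) (hs : 0 < s) {f : Kin.KX → ℂ} (hf : Bd f) (v : Completion D) :
    Usc c.Q r s (c.kc.Phi f v) =
      c.kc.Phi (fun q => f (s⁻¹ * q.1, Real.sqrt (r / s) • q.2.1, r * q.2.2)) (Usc c.Q r s v) := by
  rw [Usc_apply _ hr hs, Usc_apply _ hr hs, Kin.sc_PhiZ c.kc c.bR c.hS fr (sc_pos hr hs)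
    (Real.sqrt_pos.2 (div_pos hr hs)) (scL_lor hr hs) (scL_va r s)
    (fun w => by rw [tv_kin, scL_tv]) hf]
  simp only [Kin.ks, sqrt_sc hr hs, sqrt_sc' hr hs]

/-- translations in the null plane -/
lemma Ut_planeZ {y : V} (hy : be y = 0) (z : Completion D) :
    Ut c.Q y z = Pa c.Q (al y) (Ut c.Q (tv (tx y)) z) := by
  rw [Pa, Ut_apply, Ut_apply, Ut_apply, ← (Kin.urep_trZ c.bR).add]
  congr 1
  conv_lhs => rw [← pt_self y, pt_eq, hy, zero_smul, add_zero]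

/-- functions of `Kt` commute with the translations in the null plane -/
lemma Ut_ktZ {y : V} (hy : be y = 0) {f : ℝ → ℂ} (hf : Bd f) (z : Completion D) :
    Ut c.Q y (c.kc.Phi (fun q => f (Kin.kt q)) z) =
      c.kc.Phi (fun q => f (Kin.kt q)) (Ut c.Q y z) := by
  rw [Ut_planeZ c hy, Ut_planeZ c hy, Ut_apply, Ut_apply, ← tv_kin,
    Kin.tv_ktZ c.kc c.bR c.hS fr c.bV _ hf, c.Pa_Phi, c.Pa_Phi]
  exact c.kc.comm (ex_bd (r := fun q : Kin.KX => q.2.2) (by fun_prop) _) (hf.comp Kin.kt_meas) _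

end Br

variable {D : Type*} [NormedAddCommGroup D] [InnerProductSpace ℂ D] [GrD D]

/-- row KT, without hypotheses -/
theorem kt_thmZ (c : CtxZ D) : KTZ c where
  add0 s t := by simp only [S0_ExZ, Ex_add _ Kin.k0_meas]
  add s t := by simp only [Sk_ExZ, Ex_add _ Kin.kt_meas]
  zero := by simp only [S0_ExZ, Sk_ExZ, Ex_zero, and_self]
  uni t := by
    rw [S0_ExZ, Sk_ExZ]
    exact ⟨Ex_uni _ Kin.k0_meas t, Ex_uni _ Kin.kt_meas t⟩
  cont z := by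
    simp only [S0_ExZ, Sk_ExZ]
    exact ⟨Ex_cont _ Kin.k0_meas z, Ex_cont _ Kin.kt_meas z⟩
  comm s t := by
    refine ⟨by rw [S0_ExZ, Sk_ExZ, Ex_comm _ Kin.k0_meas Kin.kt_meas], ?_⟩
    rw [CtxZ.Sk, mul_assoc, S0_ExZ, S0_ExZ, ← Ex_add _ Kin.k0_meas, neg_add_cancel, Ex_zero, mul_one]
  vac t := by
    rw [c.S0_Phi, c.Sk_Phi, Kin.kPhi_omZ c.kc c.bR c.hS fr (ex_bd Kin.k0_meas t),
      Kin.kPhi_omZ c.kc c.bR c.hS fr (ex_bd Kin.kt_meas t)]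
    simp [Kin.kt, Kin.k0]
  ut t y hy := by
    ext z
    rw [mul_apply_eq_comp, mul_apply_eq_comp, c.Sk_Phi, c.Sk_Phi]
    exact Ut_ktZ c hy (f := fun x => cexp (I * (t * x : ℝ))) (ex_bd measurable_id t) z
  ga t w := by
    ext z
    rw [mul_apply_eq_comp, mul_apply_eq_comp, c.Sk_Phi, c.Sk_Phi, c.Ga_Phi, c.Ga_Phi]
    exact c.kc.comm (Bd.expI (by unfold d2; fun_prop)) (ex_bd Kin.kt_meas t) z
  sc r s t hr hs := by
    ext z
    rw [mul_apply_eq_comp, mul_apply_eq_comp, c.Sk_Phi, c.Sk_Phi,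
      sc_kcZ c hr hs (ex_bd Kin.kt_meas t)]
    simp only [kt_sc hr hs]
    simp only [div_eq_mul_inv, mul_assoc]
  pos z w h := by
    obtain ⟨h1, rfl⟩ := c.cgn_Sk.1 h
    exact Calc.form_nonneg h1 (ae_ktZ c z)
  lip z w t ht h := by
    obtain ⟨h1, rfl⟩ := c.cgn_Sk.1 h
    rw [Sk_ExZ]
    exact Ex_lip _ Kin.kt_meas h1 (ae_ktZ c z) ht
  dom z := by
    rw [Br.dm_iff _ measurable_fst fun t => c.SK_Phi t z, Br.dm_iff _ Kin.kt_meas fun t => c.Sk_Phi t z,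
      Br.dm_iff _ Kin.k0_meas fun t => c.S0_Phi t z]
    exact Kin.dom_KZ c.kc c.bR c.hS fr c.bV c.kpos
  split z hz := by
    obtain ⟨h1, h2⟩ := c.cgn_SK.1 hz.gn'
    obtain ⟨h3, h4⟩ := (Kin.dom_KZ c.kc c.bR c.hS fr c.bV c.kpos).1 h1
    rw [(c.cgn_Sk.2 ⟨h3, rfl⟩).gen_eq', (c.cgn_S0.2 ⟨h4, rfl⟩).gen_eq', ← h2]
    refine ⟨Kin.K_eq c.kc h3 h4, ?_⟩
    simpa only [pow_one] using (Kin.norm_kt_powZ c.kc c.bR c.hS fr c.bV c.kpos 1
      (by simpa only [pow_one] using h1)).2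
  two z hz hz' := by
    obtain ⟨h1, h2⟩ := c.cgn_SK.1 hz.gn'
    obtain ⟨h3, h4⟩ := c.cgn_SK.1 hz'.gn'
    rw [← h2] at h3
    obtain ⟨h5, h6⟩ := Calc.Psi_mul h1 h3
    obtain ⟨h7, h8⟩ := Kin.norm_kt_powZ c.kc c.bR c.hS fr c.bV c.kpos 2
      (by simpa only [_root_.sq] using h5)
    simp only [_root_.sq] at h7 h8
    have h9 := ((Kin.dom_KZ c.kc c.bR c.hS fr c.bV c.kpos).1 h1).1
    have hm : Measurable fun q => (Kin.kt q : ℂ) := measurable_ofReal.comp Kin.kt_meas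
    have h10 := c.cgn_Sk.2 ⟨(Calc.dom_Psi h9 hm).2 h7, Calc.Psi_Psi h9 hm h7⟩
    rw [(c.cgn_Sk.2 ⟨h9, rfl⟩).gen_eq', h10.gen_eq', ← h4, ← h2, ← h6]
    exact ⟨h10.dm', h8⟩
  k0 ψ ψ' h h0 hP := by
    have a : ∀ i, c.kc.Dom (fun q => (q.2.1 i : ℂ) * q.2.1 i) ψ ∧
        c.kc.Psi (fun q => (q.2.1 i : ℂ) * q.2.1 i) ψ = gen (Mi c.Q i) (gen (Mi c.Q i) ψ) := by
      intro i
      obtain ⟨h1, h2⟩ := (c.cgn_Mi i).1 (h i).1.gn'
      obtain ⟨h3, h4⟩ := (c.cgn_Mi i).1 (h i).2.gn'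
      rw [← h4, ← h2]
      rw [← h2] at h3
      exact Calc.Psi_mul h1 h3
    obtain ⟨h1, h2⟩ := c.cgn_Pa'.1 hP
    have e : (fun q : Kin.KX => ((SN.dot q.2.1 q.2.1 : ℝ) : ℂ)) =
        fun q => (q.2.1 0 : ℂ) * q.2.1 0 + (q.2.1 1 : ℂ) * q.2.1 1 := by
      funext q
      rw [Kin.dot2]
      push_cast
      rfl
    refine c.cgn_S0.2 (Kin.k0_critZ c.kc c.bR c.hS fr c.bV h0 ?_ h1 ?_)
    · rw [e]
      exact (a 0).1.add (a 1).1
    · rw [e, Calc.Psi_add (a 0).1 (a 1).1, (a 0).2, (a 1).2, h2, Fin.sum_univ_two]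

theorem kt_rowZ (c : CtxZ D) : T1Z c → KTZ c := fun _ => kt_thmZ c

end Vale.Agent.P352X

end
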