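import Vale.Agent.P352X.R.SCH
import Vale.Agent.P352Z.P352X.R.SCH.Dom

open Vale.Agent.P352G

/-!
# P352X: row SCH
-/

noncomputable section

open MeasureTheory Filter Topology Complex Set
open scoped ComplexConjugate

namespace Vale.Agent.P352X

open Vale.Agent.P352 Vale.Agent.P352.GF Vale.Agent.P352.BW Vale.Agent.P352.H755
open UniformSpace (Completion)

namespace Sch

variable {D : Type*} [NormedAddCommGroup D] [InnerProductSpace ℂ D] [GrD D] {c : CtxZ D}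
  {ell : (V → ℂ) → Completion D} {c0 s : ℝ} {γ γ' : P3 → ℂ} {φ φ' : ℝ → ℝ}
  {S S' : Completion D →L[ℂ] Completion D}

lemma CmZ.mul (h : CmZ c S) (h' : CmZ c S') : CmZ c (S * S') :=
  ⟨fun y k => by rw [← mul_assoc, h.ut y k, mul_assoc, h'.ut y k, mul_assoc],
    fun w => by rw [← mul_assoc, h.ga, mul_assoc, h'.ga, mul_assoc],
    fun r k => by rw [← mul_assoc, h.sc r k, mul_assoc, h'.sc r k, mul_assoc]⟩

lemma CmZ.sub_one (h : CmZ c S) : CmZ c (S - 1) :=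
  ⟨fun y k => by rw [mul_sub, sub_mul, h.ut y k, mul_one, one_mul],
    fun w => by rw [mul_sub, sub_mul, h.ga, mul_one, one_mul],
    fun r k => by rw [mul_sub, sub_mul, h.sc r k, mul_one, one_mul]⟩

variable (c ell) in
/-- the form of `Kt` -/
def ccZ (φ' φ : ℝ → ℝ) : ℂ := inner ℂ (Tht ell (gb 1) φ') (gen c.Sk (Tht ell (gb 1) φ)) / n1

variable (c ell) in
/-- the norm of `Kt` -/
def ddZ (φ : ℝ → ℝ) : ℝ := ‖gen c.Sk (Tht ell (gb 1) φ)‖ ^ 2 / n1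

variable (g : GRPZ c) (kd : KDZ c) (he : EllZ c ell c0)
include g he

lemma dist_eqZ (hφ : Fn1 φ) (t : ℝ) : ∃ κ : ℝ, ∀ γ, MemLp γ 2 m3 →
    ‖c.Sk t (Tht ell γ φ) - Tht ell γ φ‖ ^ 2 = κ * ∫ k, ‖γ k‖ ^ 2 ∂m3 := by
  obtain ⟨κ, h⟩ := schur_ThtZ g he ((cm_SkZ (-t)).sub_one.mul (cm_SkZ t).sub_one) hφ hφ
  refine ⟨κ.re, fun γ hγ => ?_⟩
  have h1 := congrArg re (h γ γ hγ hγ)
  rw [integral_sq, re_mul_ofReal, mul_apply_eq_comp, sub_apply, one_apply_eq_self, inner_sub_right,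
    (kt_thmZ c).ugk.adj', neg_neg, ← inner_sub_left, sub_apply, one_apply_eq_self] at h1
  rw [← h1, ← inner_self_eq_norm_sq (𝕜 := ℂ)]
  rfl

include kd in
theorem domZ (hγ : MemLp γ 2 m3) (hφ : D0 φ) : Dm c.Sk (Tht ell γ φ) := by
  obtain ⟨γ0, h0, h1, h2⟩ := exists_dmZ g kd he hφ
  have ug := (kt_thmZ c).ugk
  have p : 0 ≤ ∫ k, ‖γ k‖ ^ 2 ∂m3 := integral_nonneg fun _ => sq_nonneg _
  refine (ug.dm_of_lip (K := √((∫ k, ‖γ k‖ ^ 2 ∂m3) / ∫ k, ‖γ0 k‖ ^ 2 ∂m3) *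
    ‖gen c.Sk (Tht ell γ0 φ)‖) (Eventually.frequently (.of_forall fun t => ?_))).1
  obtain ⟨κ, h⟩ := dist_eqZ g he (fn1_of_tst hφ.1) t
  have h3 := pow_le_pow_left₀ (norm_nonneg _) (ug.lip h2.gn t) 2
  refine (pow_le_pow_iff_left₀ (norm_nonneg _) (by positivity) two_ne_zero).1 ?_
  rw [h γ0 h0, ← le_div_iff₀ h1] at h3
  rw [h γ hγ, mul_assoc, mul_pow, Real.sq_sqrt (by positivity)]
  exact (mul_le_mul_of_nonneg_right h3 p).trans_eq (by ring)

include kd in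
theorem nrmZ (hγ : MemLp γ 2 m3) (hφ : D0 φ) :
    ‖gen c.Sk (Tht ell γ φ)‖ ^ 2 = ddZ c ell φ * ∫ k, ‖γ k‖ ^ 2 ∂m3 := by
  have a : ∀ {γ}, MemLp γ 2 m3 → Tendsto (fun t : ℝ =>
      ‖t⁻¹‖ ^ 2 * ‖c.Sk t (Tht ell γ φ) - Tht ell γ φ‖ ^ 2) (𝓝[≠] 0)
      (𝓝 (‖gen c.Sk (Tht ell γ φ)‖ ^ 2)) := fun hγ => by
    simpa only [zero_add, (kt_thmZ c).ugk.zero, norm_smul, norm_I, one_mul, mul_pow] using
      (HasDerivAt.tendsto_slope_zero (domZ g kd he hγ hφ).gn).norm.pow 2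
  rw [ddZ, div_mul_eq_mul_div, eq_div_iff n1_pos.ne']
  refine tendsto_nhds_unique ((a hγ).mul_const _) (((a (gb_l2 1)).mul_const _).congr fun t => ?_)
  obtain ⟨κ, h⟩ := dist_eqZ g he (fn1_of_tst hφ.1) t
  rw [h γ hγ, h _ (gb_l2 1), n1]
  ring

include kd in
theorem formZ (hγ' : MemLp γ' 2 m3) (hφ' : Tst φ') (hγ : MemLp γ 2 m3) (hφ : D0 φ) :
    inner ℂ (Tht ell γ' φ') (gen c.Sk (Tht ell γ φ)) =
      ccZ c ell φ' φ * ∫ k, conj (γ' k) * γ k ∂m3 := by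
  have a : ∀ {γ}, MemLp γ 2 m3 → ∀ x, HasDerivAt (fun t : ℝ => inner ℂ x (c.Sk t (Tht ell γ φ)))
      (I * inner ℂ x (gen c.Sk (Tht ell γ φ))) 0 := fun hγ x => by
    simpa only [inner_zero_left, add_zero, inner_smul_right] using
      (hasDerivAt_const (0 : ℝ) x).inner ℂ (domZ g kd he hγ hφ).gn
  rw [ccZ, div_mul_eq_mul_div, eq_div_iff (ofReal_ne_zero.2 n1_pos.ne')]
  refine mul_left_cancel₀ I_ne_zero ?_
  rw [← mul_assoc, ← mul_assoc]
  refine ((a hγ _).mul_const _).unique (((a (gb_l2 1) _).mul_const _).congr_of_eventuallyEq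
    (.of_forall fun t => ?_))
  obtain ⟨κ, h⟩ := schur_ThtZ g he (cm_SkZ t) (fn1_of_tst hφ') (fn1_of_tst hφ.1)
  simp only [h _ _ hγ' hγ, h _ _ (gb_l2 1) (gb_l2 1), integral_sq, n1]
  ring

lemma uscZ (hs : 0 < s) (hγ : MemLp γ 2 m3) (hφ : D0 φ) : Usc c.Q 1 s (Tht ell γ φ) =
    (s : ℂ) • Tht ell (fun k => γ (dl one_pos (Real.sqrt_pos.2 hs) k)) (dil s φ) := by
  simpa only [one_pow, one_mul] using Tht_scZ g he one_pos hs (Real.sqrt_pos.2 hs)
    (by rw [Real.sq_sqrt hs.le, one_mul]) hγ (fn1_of_tst hφ.1) (fn1_of_tst (d0_dil hφ hs).1)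

include kd in
lemma gen_uscZ (hs : 0 < s) (hγ : MemLp γ 2 m3) (hφ : D0 φ) :
    gen c.Sk (Tht ell (fun k => γ (dl one_pos (Real.sqrt_pos.2 hs) k)) (dil s φ)) =
      Usc c.Q 1 s (gen c.Sk (Tht ell γ φ)) := by
  have h := ((domZ g kd he hγ hφ).gn.scale (W' := c.Sk) (Usc c.Q 1 s) s
    (ψ' := Usc c.Q 1 s (Tht ell γ φ)) fun t => by
      rw [← mul_apply_eq_comp, ← mul_apply_eq_comp, (kt_thmZ c).sc 1 s _ one_pos hs,
        mul_div_cancel_left₀ _ hs.ne']).gen_eq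
  rw [uscZ g he hs hγ hφ, gen_smul _ (domZ g kd he ((sc1 hs).memLp.2 hγ) (d0_dil hφ hs))] at h
  exact smul_right_injective _ (ofReal_ne_zero.2 hs.ne') h

include kd in
theorem sccZ (hφ' : D0 φ') (hφ : D0 φ) (hs : 0 < s) :
    ccZ c ell (dil s φ') (dil s φ) = ccZ c ell φ' φ := by
  have l := (sc1 hs).memLp.2 (gb_l2 1)
  have h := formZ g kd he l (d0_dil hφ' hs).1 l (d0_dil hφ hs)
  have h1 := inner_unitary (A := Usc c.Q 1 s) (g.uni _ _ _) (Tht ell (gb 1) φ')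
    (gen c.Sk (Tht ell (gb 1) φ))
  rw [uscZ g he hs (gb_l2 1) hφ', inner_smul_left, ← gen_uscZ g kd he hs (gb_l2 1) hφ, h,
    (sc1 hs).integral fun k => conj (gb 1 k) * gb 1 k, integral_sq, conj_ofReal] at h1
  rw [ccZ, ccZ, ← h1, ccZ, real_smul, n1]
  have := ofReal_ne_zero.2 hs.ne'
  have := ofReal_ne_zero.2 n1_pos.ne'
  push_cast
  field_simp

include kd in
theorem sddZ (hφ : D0 φ) (hs : 0 < s) : ddZ c ell (dil s φ) = s * ddZ c ell φ := by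
  have h := nrmZ g kd he ((sc1 hs).memLp.2 (gb_l2 1)) (d0_dil hφ hs)
  rw [gen_uscZ g kd he hs (gb_l2 1) hφ, Br.Usc_norm _ one_pos hs,
    (sc1 hs).integral fun k => ‖gb 1 k‖ ^ 2] at h
  rw [ddZ.eq_1 c ell φ, h, smul_eq_mul, ← n1]
  have := n1_pos.ne'
  field_simp

include kd in
theorem contZ (hφ' : D0 φ') (hφ : D0 φ) :
    ContinuousOn (fun s => ccZ c ell (dil s φ') φ) (Ioi 0) := by
  intro s0 h0
  refine ContinuousAt.continuousWithinAt ?_
  set R := √(2 / s0)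
  have hc : ContinuousAt (fun s => inner ℂ (Usc c.Q 1 (max s (s0 / 2)) (Tht ell (gb 1) φ'))
      (gen c.Sk (Tht ell (gb R) φ)) / n1) s0 :=
    (((g.sc_cont (fun s => ⟨one_pos, lt_max_of_lt_right (half_pos h0)⟩) continuous_const
      (by fun_prop) continuous_const).inner continuous_const).div_const _).continuousAt
  refine hc.congr ((lt_mem_nhds (half_lt_self h0)).mono fun s hs' => ?_)
  have hs : 0 < s := (half_pos h0).trans hs'
  have e : ∀ k, conj (gb 1 (dl one_pos (Real.sqrt_pos.2 hs) k)) * gb R k =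
      conj (gb 1 (dl one_pos (Real.sqrt_pos.2 hs) k)) * gb 1 (dl one_pos (Real.sqrt_pos.2 hs) k) := by
    intro k
    by_cases hk : dl one_pos (Real.sqrt_pos.2 hs) k ∈ bx 1
    · have h1 : √s * ‖k.2‖ < 1 := by simpa [norm_smul, abs_of_nonneg] using hk.2
      have h2 : k ∈ bx R := ⟨by simpa using hk.1, mem_ball_zero_iff.2 (Real.lt_sqrt_of_sq_lt (by
        have h3 := pow_lt_one₀ (by positivity) h1 two_ne_zero
        rw [mul_pow, Real.sq_sqrt hs.le] at h3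
        rw [lt_div_iff₀ h0]
        nlinarith [sq_nonneg ‖k.2‖]))⟩
      rw [gb, gb, indicator_of_mem hk, indicator_of_mem h2]
    · rw [gb, indicator_of_notMem hk, map_zero, zero_mul, zero_mul]
  simp only [max_eq_left hs'.le]
  rw [uscZ g he hs (gb_l2 1) hφ', inner_smul_left, formZ g kd he ((sc1 hs).memLp.2 (gb_l2 1))
    (d0_dil hφ' hs).1 (gb_l2 R) hφ, integral_congr_ae (.of_forall e),
    (sc1 hs).integral fun k => conj (gb 1 k) * gb 1 k, integral_sq, conj_ofReal, real_smul, ← n1]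
  have := ofReal_ne_zero.2 hs.ne'
  have := ofReal_ne_zero.2 n1_pos.ne'
  push_cast
  field_simp

lemma norm_dilZ (hφ : D0 φ) (hs : 0 < s) :
    ‖Tht ell (gb 1) (dil s φ)‖ = (√s)⁻¹ * ‖Tht ell (gb 1) φ‖ := by
  have l := (sc1 hs).memLp.2 (gb_l2 1)
  have f := fn1_of_tst (d0_dil hφ hs).1
  have h := congrArg norm (uscZ g he hs (gb_l2 1) hφ)
  have h1 := congrArg norm (inner_ThtZ he l f l f)
  have h2 := congrArg norm (inner_ThtZ he (gb_l2 1) f (gb_l2 1) f)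
  rw [(sc1 hs).integral fun k => conj (gb 1 k) * gb 1 k, mul_smul_comm, norm_smul, ← h2] at h1
  simp only [inner_self_eq_norm_sq_to_K, norm_pow, RCLike.norm_ofReal, abs_norm, norm_inv,
    Real.norm_of_nonneg hs.le] at h1
  rw [Br.Usc_norm _ one_pos hs, norm_smul, norm_real, Real.norm_of_nonneg hs.le] at h
  refine (pow_left_inj₀ (norm_nonneg _) (by positivity) two_ne_zero).1 ?_
  rw [h, mul_pow, mul_pow, h1, inv_pow, Real.sq_sqrt hs.le]
  field_simp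

include kd in
/-- the decay of the form under relative scalings -/
theorem cc_leZ (hφ' : D0 φ') (hφ : D0 φ) : ∃ K : ℝ, ∀ s, 0 < s →
    ‖ccZ c ell (dil s φ') φ‖ ≤ K * √s ∧ ‖ccZ c ell (dil s φ') φ‖ ≤ K * (√s)⁻¹ := by
  have p := n1_pos
  refine ⟨(‖gen c.Sk (Tht ell (gb 1) φ')‖ * ‖Tht ell (gb 1) φ‖ +
    ‖Tht ell (gb 1) φ'‖ * ‖gen c.Sk (Tht ell (gb 1) φ)‖) / n1, fun s hs => ⟨?_, ?_⟩⟩
  · have h := sddZ g kd he hφ' hs
    rw [ddZ, ddZ, ← mul_div_assoc, div_left_inj' p.ne', ← Real.sq_sqrt hs.le, ← mul_pow,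
      pow_left_inj₀ (norm_nonneg _) (by positivity) two_ne_zero, Real.sq_sqrt hs.le] at h
    rw [ccZ, (kt_thmZ c).ugk.symm (domZ g kd he (gb_l2 1) (d0_dil hφ' hs)).gn
      (domZ g kd he (gb_l2 1) hφ).gn, norm_div, norm_real, Real.norm_of_nonneg p.le,
      div_mul_eq_mul_div]
    gcongr
    refine (norm_inner_le_norm _ _).trans ?_
    rw [h]
    nlinarith [mul_nonneg (mul_nonneg (norm_nonneg (Tht ell (gb 1) φ'))
      (norm_nonneg (gen c.Sk (Tht ell (gb 1) φ)))) (Real.sqrt_nonneg s)]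
  · rw [ccZ, norm_div, norm_real, Real.norm_of_nonneg p.le, div_mul_eq_mul_div]
    gcongr
    refine (norm_inner_le_norm _ _).trans ?_
    rw [norm_dilZ g he hφ' hs]
    nlinarith [mul_nonneg (mul_nonneg (norm_nonneg (Tht ell (gb 1) φ))
      (norm_nonneg (gen c.Sk (Tht ell (gb 1) φ')))) (inv_nonneg.2 (Real.sqrt_nonneg s))]

include kd in
theorem intZ (hφ' : D0 φ') (hφ : D0 φ) :
    IntegrableOn (fun s : ℝ => ccZ c ell (dil s φ') φ / s) (Ioi 0) := by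
  obtain ⟨K, hK⟩ := cc_leZ g kd he hφ' hφ
  have hc : ContinuousOn (fun s : ℝ => ccZ c ell (dil s φ') φ / s) (Ioi 0) :=
    (contZ g kd he hφ' hφ).div continuous_ofReal.continuousOn fun s hs =>
      ofReal_ne_zero.2 (ne_of_gt hs)
  rw [← Ioc_union_Ioi_eq_Ioi zero_le_one]
  refine IntegrableOn.union ?_ ?_
  · have h := (intervalIntegral.intervalIntegrable_rpow' (r := -(1 / 2)) (a := 0) (b := 1)
      (by norm_num)).1.const_mul K
    refine h.mono' ((hc.mono Ioc_subset_Ioi_self).aestronglyMeasurable measurableSet_Ioc)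
      ((ae_restrict_mem measurableSet_Ioc).mono fun s hs => ?_)
    rw [norm_div, norm_real, Real.norm_of_nonneg hs.1.le, div_le_iff₀ hs.1, mul_assoc,
      ← Real.rpow_add_one hs.1.ne']
    refine (hK s hs.1).1.trans_eq ?_
    rw [Real.sqrt_eq_rpow]
    norm_num
  · have h := (integrableOn_Ioi_rpow_of_lt (a := -(3 / 2)) (by norm_num) one_pos).const_mul K
    refine h.mono' ((hc.mono (Ioi_subset_Ioi zero_le_one)).aestronglyMeasurable measurableSet_Ioi)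
      ((ae_restrict_mem measurableSet_Ioi).mono fun s hs => ?_)
    have h0 : 0 < s := one_pos.trans hs
    rw [norm_div, norm_real, Real.norm_of_nonneg h0.le, div_le_iff₀ h0, mul_assoc,
      ← Real.rpow_add_one h0.ne']
    refine (hK s h0).2.trans_eq ?_
    rw [Real.sqrt_eq_rpow, ← Real.rpow_neg h0.le]
    norm_num

include kd in
theorem schur_thmZ : SchurZ c ell (ccZ c ell) (ddZ c ell) where
  dom _ _ h1 h2 := domZ g kd he h1 h2
  form _ _ _ _ h1 h2 h3 h4 := formZ g kd he h1 h2.1 h3 h4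
  nrm _ _ h1 h2 := nrmZ g kd he h1 h2
  scc _ _ _ h1 h2 h3 := sccZ g kd he h1 h2 h3
  sdd _ _ h1 h2 := sddZ g kd he h1 h2
  cont _ _ h1 h2 := contZ g kd he h1 h2
  int _ _ h1 h2 := intZ g kd he h1 h2

end Sch

variable {D : Type*} [NormedAddCommGroup D] [InnerProductSpace ℂ D] [GrD D]

theorem sch_rowZ (c : CtxZ D) : T3Z c → SCHZ c := fun t _ _ he => ⟨_, _, Sch.schur_thmZ t.grp t.kd he⟩

end Vale.Agent.P352X

end
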