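import Vale.Agent.P352X.R.CONK.VIT
import Vale.Agent.P352X.R.CONK.Prim
import Vale.Agent.P352X.R.CONK.Ann
import Vale.Agent.P352X.R.BP.Def
import Vale.Agent.P352Z.P352X.R.CONK.A1
import Vale.Agent.P352Z.P352X.R.CONK.A3
import Vale.Agent.P352Z.P352X.R.CONK.AA
import Vale.Agent.P352Z.P352X.R.CONK.AB
import Vale.Agent.P352Z.P352X.R.CONK.DT
import Vale.Agent.P352Z.P352X.R.CONK.FIN
import Vale.Agent.P352Z.P352X.R.CONK.Flow
import Vale.Agent.P352Z.P352X.R.CONK.K0T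
import Vale.Agent.P352Z.P352X.R.CONK.Near
import Vale.Agent.P352Z.P352X.R.CONK.Norm
import Vale.Agent.P352Z.P352X.R.CONK.Rf
import Vale.Agent.P352Z.P352X.R.CONK.Sh
import Vale.Agent.P352Z.P352X.R.CONK.Smv
import Vale.Agent.P352Z.P352X.R.CONK.Tail
import Vale.Agent.P352Z.P352X.R.CONK.Uf
import Vale.Agent.P352Z.P352X.R.SCH

open Vale.Agent.P352G

/-!
# P352X, row CONK
-/

set_option linter.all false

namespace Vale.Agent.P352X

variable {D : Type*} [NormedAddCommGroup D] [InnerProductSpace ℂ D] [GrD D]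

theorem CK.rowsZ (c : CtxZ D) : CK.RowsZ c where
  vit := CK.vit_row
  prim := CK.prim_row
  ann := CK.ann_row
  norm := CK.norm_rowZ c
  tail := CK.tail_rowZ c
  cv := CK.cv_rowZ c
  smv := CK.smv_rowZ c
  lwf := CK.lwf_rowZ c
  kp := CK.kp_rowZ c
  tri := CK.tri_rowZ c
  flow := CK.flow_rowZ c
  near := CK.near_rowZ c
  dt := CK.dt_rowZ c
  k0t := CK.k0t_rowZ c
  sch := sch_rowZ c
  ab := CK.ab_rowZ c
  a1 := CK.a1_rowZ c
  a3 := CK.a3_rowZ c
  aa := CK.aa_rowZ c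
  ub := CK.ub_rowZ c
  uf := CK.uf_rowZ c
  rf := CK.rf_rowZ c
  fin := CK.fin_rowZ c
  sh := CK.sh_rowZ c

/-- row CONK, from the case `a0 = 0` of row BP -/
theorem conk_row0Z (c : CtxZ D) : T3Z c → CK.BP0Z c → CONKZ c := (CK.rowsZ c).conk

end Vale.Agent.P352X
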