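import Vale.Agent.P352X.R.EE
import Vale.Agent.P352Z.P352X.R.CONK.Kp
import Vale.Agent.P352Z.P352X.R.CONK.Smv
import Vale.Agent.P352Z.P352X.R.EE.F
import Vale.Agent.P352Z.P352X.R.EE.T

open Vale.Agent.P352G

/-!
# P352X, row EE: the operators `K_y` are quadratic along `b`
-/

set_option linter.all false

open MeasureTheory Filter Topology Set
open scoped SchwartzMap ComplexConjugate ContDiff

namespace Vale.Agent.P352X

open Vale.Agent.P352 Vale.Agent.P352.GF Vale.Agent.P352.BW Vale.Agent.P352.H246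
open Vale.Agent.P352.H496 Vale.Agent.P352.H755 Vale.Agent.P352.H15
open Vale.Agent.P132 (jconj)
open UniformSpace (Completion)

noncomputable section

namespace EEZ

variable {D : Type*} [NormedAddCommGroup D] [InnerProductSpace ℂ D] [GrD D] {c : CtxZ D}

lemma ev_ext {S : Set (Completion D)} (hS : ∀ z, Gm D z = z → z ∈ closure S) {a b : Completion D}
    (ha : Gm D a = a) (hb : Gm D b = b) (h : ∀ z ∈ S, inner ℂ z a = inner ℂ z b) : a = b := by
  have k : closure S ⊆ {z | inner ℂ z a = inner ℂ z b} :=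
    closure_minimal h (isClosed_eq (by fun_prop) (by fun_prop))
  have := k (hS (a - b) (by rw [map_sub, ha, hb]))
  rw [mem_setOf_eq, ← sub_eq_zero, ← inner_sub_right, inner_self_eq_zero] at this
  exact sub_eq_zero.1 this

lemma ev_tri (g : GRPZ c) {a u : Fin 3 → ℝ} {ψ : Completion D} (e : Gm D ψ = ψ)
    (hK : ∀ i, Dm (c.Ky (u i • vb)) ψ) (hP : Dm (Pb c.Q) ψ) :
    Gm D (∑ i, (a i : ℂ) • gen (c.Ky (u i • vb)) ψ) = ∑ i, (a i : ℂ) • gen (c.Ky (u i • vb)) ψ ∧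
      Gm D ((4 : ℂ) • gen (Pb c.Q) ψ) = (4 : ℂ) • gen (Pb c.Q) ψ := by
  constructor
  · rw [map_sum]
    refine Finset.sum_congr rfl fun i _ => ?_
    rw [map_smul, ← ((hK i).comm (A := Gm D) fun t => ?_).2, e]
    rw [CtxZ.Ky, Ut, Ut, ← mul_assoc, ← mul_assoc, g.gU, mul_assoc _ (Gm D), g.gS _ _ g.na,
      ← mul_assoc, mul_assoc _ (Gm D), g.gU, ← mul_assoc]
  · rw [map_smul, ← (hP.comm (A := Gm D) fun t => g.gU _ _ _).2, e]

lemma tri0 (t : T3Z c) (bb : BBZ c) (dd : DDZ c) {u0 : ℝ} {a u : Fin 3 → ℝ}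
    (hu : ∀ i, u i ∈ Ioo (-u0) u0) (h0 : ∑ i, a i = 0) (h1 : ∑ i, a i * u i = 0)
    (h2 : ∑ i, a i * u i ^ 2 = 2) {ψ : Completion D} (eψ : Gm D ψ = ψ)
    (hK : ∀ i, Dm (c.Ky (u i • vb)) ψ) (hP : Dm (Pb c.Q) ψ) :
    ∑ i, (a i : ℂ) • gen (c.Ky (u i • vb)) ψ = (4 : ℂ) • gen (Pb c.Q) ψ := by
  have g := t.grp
  have s := CK.smv_rowZ c t
  have k0 : 0 < u0 := by linarith [(hu 0).1, (hu 0).2]
  set A := 2 * u0 + 10
  have sub : dc (pt (3 * A) (-A) 0) 1 ⊆ {z | be z < -(u0 + 1) ∧ 1 < al z} := fun z hz => by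
    obtain ⟨b1, b2, -⟩ := _root_.Vale.Agent.P352X.EE.dc_Bx' hz
    exact ⟨by linarith [(abs_le.1 b2).2], by linarith [(abs_le.1 b1).1]⟩
  have g0 : G0 D := ⟨g.g2, g.gs⟩
  refine ev_ext (t.good.denseE (pt (3 * A) (-A) 0) 1 one_pos) (ev_tri g eψ hK hP).1
    (ev_tri g (a := a) eψ hK hP).2 ?_
  rintro _ ⟨X, hX, eX, gX, rfl⟩
  obtain ⟨v1, v2, -⟩ := s.dom _ (s.app X _ gX s.vac)
  have dk : ∀ i, Dm (c.Ky (u i • vb)) (X c.Om) := fun i => by
    obtain ⟨r0, p, q⟩ := CK.Kp.ex_cone one_pos sub 0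
    obtain ⟨C, hC⟩ := t.kd.a r0 p
    simpa using (g.dm_Ky _).2 (hC _ _ (g.pr_ut (.of_mem hX) _ (q (u i) ⟨by linarith [(hu i).1],
      by linarith [(hu i).2]⟩)) (CK.Kp.gn_splitZ g 0 (u i) v2.gn v1.gn).dm).1
  have e : ∑ i, (a i : ℂ) • gen (c.Ky (u i • vb)) (X c.Om) = (4 : ℂ) • gen (Pb c.Q) (X c.Om) := by
    have k := ev_tri g (a := a) ((g0.ev_apply eX _).trans (by rw [g.gv])) dk v2
    refine c.J.injective (ev_ext (t.good.denseE (pt A (-A) 0) 1 one_pos)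
      (by rw [← t.jc.gam, k.1]) (by rw [← t.jc.gam, k.2]) ?_)
    rintro _ ⟨Y, hY, eY, gY, rfl⟩
    rw [← inner_conj_symm, ← inner_conj_symm (Y _)]
    refine congrArg _ ?_
    have cn := (CK.Kp.shiftZ t s 0 (by linarith) one_pos sub hX gX).1
    simp only [tv_zero, zero_add] at cn
    have := _root_.Vale.Agent.P352X.EE.three (continuousOn_const.inner (cn.mono (Icc_subset_Ioo (by linarith) (by linarith))))
      (fun R => key t.toT2Z bb dd eX (g0.ev_star eY) k0.le le_rfl hX gX (star_mem hY) (s.adj _ gY) v2.gn) hu h0 h1 h2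
    rw [jconj_star c.J c.J_J, star_star, P132.jconj_apply, c.J_Om] at this
    rw [J_left c.J c.J_J, J_left c.J c.J_J (_ • _), inner_sum, inner_smul_right, ← this]
    simp only [inner_smul_right]
  rw [inner_sum, inner_smul_right, g.ugPb.symm v2.gn hP.gn, ← map_ofNat conj 4,
    ← inner_smul_left, ← e, sum_inner]
  refine Finset.sum_congr rfl fun i _ => ?_
  rw [inner_smul_right, inner_smul_left, Complex.conj_ofReal, (g.ugKy _).symm (dk i).gn (hK i).gn]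

lemma tri (t : T3Z c) (bb : BBZ c) (dd : DDZ c) {u0 : ℝ} {a u : Fin 3 → ℝ}
    (hu : ∀ i, u i ∈ Ioo (-u0) u0) (h0 : ∑ i, a i = 0) (h1 : ∑ i, a i * u i = 0)
    (h2 : ∑ i, a i * u i ^ 2 = 2) {ψ : Completion D} (hK : ∀ i, Dm (c.Ky (u i • vb)) ψ)
    (hP : Dm (Pb c.Q) ψ) :
    ∑ i, (a i : ℂ) • gen (c.Ky (u i • vb)) ψ = (4 : ℂ) • gen (Pb c.Q) ψ := by
  have g := t.grp
  have g0 : G0 D := ⟨g.g2, g.gs⟩
  have ab : 0 < mdot va vb := by rw [g.nab]; exact one_pos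
  have := tri_all g t.bas t.kd t.good.dense (fun y => (g.rs _ (wdg_open vb va y)
    (wdg_nonempty g.nb g.na (md_comm va vb ▸ ab) y)).mono fun z k => k.elim fun X k => ⟨tw X,
      (t.jc.dual _ _ y g.na g.nb ab _).2 (by rw [g0.tw_tw]; exact k.1),
      (g0.tw_apply X g.gv).trans k.2⟩) g.g2 g.gs g.gv
    g.gN g.gU (p := 4) (a := a) hu (fun ψ e k p => by simpa using tri0 t bb dd hu h0 h1 h2 e k p) hK hP
  simpa using this

end EEZ

variable {D : Type*} [NormedAddCommGroup D] [InnerProductSpace ℂ D] [GrD D]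

/-- **row EE** -/
theorem ee_rowZ (c : CtxZ D) : T3Z c → BBZ c → DDZ c → EEZ c := fun t bb dd lo hi ψ hK hP => by
  rcases le_or_gt hi lo with h | h
  · exact ⟨0, 0, fun u hu => absurd (hu.1.trans hu.2) (not_lt.2 h)⟩
  obtain ⟨u1, a1, b1⟩ := exists_between h
  obtain ⟨u2, a2, b2⟩ := exists_between b1
  set E := fun u : ℝ => gen (c.Ky (u • vb)) ψ
  set P := gen (Pb c.Q) ψ
  have n0 : (u2 - u1 : ℂ) ≠ 0 := by exact_mod_cast (sub_pos.2 a2).ne'
  refine ⟨(u2 - u1 : ℂ)⁻¹ • ((u2 : ℂ) • E u1 - (u1 : ℂ) • E u2) + (2 * u1 * u2 : ℂ) • P,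
    (u2 - u1 : ℂ)⁻¹ • (E u2 - E u1) - (2 * (u1 + u2) : ℂ) • P, fun u hu => ?_⟩
  show E u = _
  by_cases e1 : u = u1
  · subst e1
    match_scalars <;> field_simp <;> ring
  by_cases e2 : u = u2
  · subst e2
    match_scalars <;> field_simp <;> ring
  have n0' := (sub_pos.2 a2).ne'
  have n1 := sub_ne_zero.2 e1
  have n2 := sub_ne_zero.2 e2
  have m : ∀ i, ![u, u1, u2] i ∈ Ioo lo hi := fun i => by
    fin_cases i
    exacts [hu, ⟨a1, b1⟩, ⟨a1.trans a2, b2⟩]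
  have := EEZ.tri t bb dd (u0 := |lo| + |hi|) (u := ![u, u1, u2])
    (a := ![2 / ((u - u1) * (u - u2)), 2 / ((u - u1) * (u2 - u1)), -2 / ((u - u2) * (u2 - u1))])
    (fun i => ⟨by linarith [(m i).1, neg_abs_le lo, abs_nonneg hi],
      by linarith [(m i).2, le_abs_self hi, abs_nonneg lo]⟩)
    (by simp only [Fin.sum_univ_three, Matrix.cons_val]; field_simp; ring)
    (by simp only [Fin.sum_univ_three, Matrix.cons_val]; field_simp; ring)
    (by simp only [Fin.sum_univ_three, Matrix.cons_val]; field_simp; ring) (fun i => hK _ (m i)) hP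
  simp only [Fin.sum_univ_three, Matrix.cons_val] at this
  have n1' : (u - u1 : ℂ) ≠ 0 := by exact_mod_cast n1
  have n2' : (u - u2 : ℂ) ≠ 0 := by exact_mod_cast n2
  linear_combination (norm := match_scalars <;> field_simp <;> ring)
    ((u - u1) * (u - u2) / 2 : ℂ) • this

end

end Vale.Agent.P352X
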