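import Vale.Agent.P352Z.P352X.R.ELL.B
import Vale.Agent.P352Z.P352X.R.ZC

open Vale.Agent.P352G

/-!
# P352X, row ELL
-/

namespace Vale.Agent.P352X

variable {D : Type*} [NormedAddCommGroup D] [InnerProductSpace ℂ D] [GrD D]

theorem ell_rowZ (c : CtxZ D) (t : T1Z c) : ELLZ c := ell_ofZ t.lie t.grp (zc_rowZ c t)

end Vale.Agent.P352X
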