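import Vale.Agent.P352Z.P352X.R.F2.B

open Vale.Agent.P352G

/-!
# P352X, row F2: the Ward identity for bounded operators
-/

set_option linter.all false

noncomputable section

open Filter Topology Set
open scoped ContDiff

namespace Vale.Agent.P352X

open Vale.Agent.P352 Vale.Agent.P352.GF Vale.Agent.P352.BW Vale.Agent.P352.H496
open Vale.Agent.P352.H755 Vale.Agent.P352.H15
open Vale.Agent.P352.H246 (In Al)
open UniformSpace (Completion)
open Complex (I)
open Ap Fp

variable {D : Type*} [NormedAddCommGroup D] [InnerProductSpace ℂ D] [GrD D]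

/-- the generator on the vectors of the domain -/
lemma Fp.gn_AZ {c : CtxZ D} (g : GRPZ c) {L : ℝ → Ix → V} {x : ℝ → V} {ξ : V → V} (h0 : L 0 = GF.one)
    (x0 : x 0 = 0) (hL : ∀ e, IsLor (L e))
    (h : ∀ n z, HasDerivAt (fun e => sim 1 (L e) (x e) z n) (ξ z n) 0) (v : D) :
    Gn (fun e => Ug c.Q 1 (L e) (x e)) v (c.A ξ v : D) := by
  simp only [Gn, fun e => g.coe 1 (L e) (x e) v one_pos (hL e), ← Completion.coe_smul]
  exact ((Completion.toComplL (𝕜 := ℂ)).restrictScalars ℝ).hasFDerivAt.comp_hasDerivAt 0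
    (c.hN.der _ L x ξ v rfl h0 x0 (fun e => ⟨one_pos, hL e⟩) h)

theorem f2_rowZ (c : CtxZ D) (t : T1Z c) : F2Z c := by
  intro y r a b y1 χ Ξ L x ξ X k hr ha hb hab hX ev hC hW hχ h0 x0 hL hd hk
  have g := t.grp
  have hξ := isSim h0 hL hd
  have hA := gn_AZ g h0 x0 hL hd
  have u0 : Ug c.Q 1 (L 0) (x 0) = 1 := by rw [h0, x0]; exact g.ut0
  have sy := @gn_sym _ _ _ _ (fun e => Ug c.Q 1 (L e) (x e)) (fun e => g.ug_inner _ _ _) u0
  have sA : Sy (c.A ξ) := fun v w => by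
    simpa only [Completion.inner_coe] using (sy (hA v) (hA w)).symm
  have A0 : c.A ξ c.Q.vac = 0 := by
    have h := hA c.Q.vac
    simp only [Gn, show ∀ e, Ug c.Q 1 (L e) (x e) (c.Q.vac : D) = c.Om from fun e => g.vac _ _ _]
      at h
    have := (smul_eq_zero_iff_right Complex.I_ne_zero).1 (h.unique (hasDerivAt_const _ _))
    rwa [← norm_eq_zero, Completion.norm_coe, norm_eq_zero] at this
  have tG := test_dens hC.1 hC.2.1 hξ
  have R := c.hN.toRepZ
  have ek : Gm D k = k := by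
    have h1 := ((Gm D).restrictScalars ℝ).hasFDerivAt.comp_hasDerivAt 0 hk
    have h2 : ∀ e, Gm D (Ug c.Q 1 (L e) (x e) (X c.Om)) = Ug c.Q 1 (L e) (x e) (X c.Om) :=
      fun e => by rw [R.gUz, R.g0.ev_apply ev, g.gv]
    simp only [Function.comp_def, ContinuousLinearMap.coe_restrictScalars', h2, map_smul] at h1
    exact smul_right_injective _ Complex.I_ne_zero (h1.unique hk)
  refine t.jc.core a b y1 _ _ ha hb hab (by rw [map_add, ek, R.g0.ev_apply ev, g.gTv _ tG])
    (by rw [R.g0.ev_apply (R.g0.ev_star ev), g.gTv _ tG]) fun Y Y' hY => ?_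
  obtain ⟨K, hK, kW, hYK⟩ := al_cpt hY
  obtain ⟨ρ, hρ⟩ := hK.isBounded.exists_norm_le
  obtain ⟨χ0, Ξ0, hs⟩ := ex_std
  have aY := (g.affa _ _ _ hY).2 X (locEZ t.jc hb ha (by rwa [md_comm]) Subset.rfl hW hX ev)
  have key : ∀ χ' Ξ', Chg K χ' Ξ' → Chg (closure (dc y r)) χ' Ξ' →
      inner ℂ ((Y' c.Q.vac : D) : Completion D) (k + X (c.Tv (dens χ Ξ ξ))) -
        inner ℂ (star X (c.Tv (dens χ Ξ ξ))) ((Y c.Q.vac : D) : Completion D) =
      inner ℂ (star X ((Y' c.Q.vac : D) : Completion D)) (c.Tv (dens χ' Ξ' ξ)) -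
        inner ℂ (c.Tv (dens χ' Ξ' ξ)) (X (Y c.Q.vac : D)) := fun χ' Ξ' c1 c2 => by
    obtain ⟨G, i, e, hG⟩ := Tf_cmpZ (c := c) (norm_cdc y r) hC c2 hξ
    refine (fun p => ?_) (al_comm ((Tf_syZ (c := c) (fun m n => (i m n).1) e).sub sA)
      (fun B f v hB hf => ?_) hYK.star c.Q.vac)
    · simp only [A0, sub_zero] at p
      rw [inner_add_right, sy (hA _) hk, show c.A ξ (Y' c.Q.vac) = _ from
        (sub_sub_cancel _ _).symm.trans (congrArg _ p), Completion.coe_sub, inner_sub_left,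
        show c.Om = (c.Q.vac : D) from rfl, far_commZ t.jc hr hX ev i e, aY _ (c.Tf G _), star_inner,
        star_inner, CtxZ.Tv, CtxZ.Tv, hG, Completion.coe_add, map_add, inner_add_left, inner_add_right]
      ring
    · have q := ext_inner_left ℂ fun w => t.ch K χ' Ξ' ξ B f v w hK c1 hξ hB hf.1 hf.2.2
      rw [hG, hG, Tf_locZ tG hB hf.1 fun m n z hz z' hz' => Fp.wdg_opp ha hb
        (hχ ((in_dens hC.1 Subset.rfl hC.2.1 (smooth_sim hξ) m n).2.2 hz)) (kW (hf.2.2 hz'))] at q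
      have s := fld_sub hB hf.1 (c.Tf (dens χ Ξ ξ) v + c.Tf G v) (c.Tf (dens χ Ξ ξ) v)
      rw [add_sub_cancel_left] at s
      rw [fld_sub hB hf.1]
      linear_combination (norm := abel) q - s
  have l1 := std_nullZ g t.bas hs hξ (star X ((Y' c.Q.vac : D) : Completion D))
  have l := ((Complex.continuous_conj.tendsto 0).comp l1).sub
    (std_nullZ g t.bas hs hξ (X (Y c.Q.vac : D)))
  simp only [map_zero, sub_zero, Function.comp_def, inner_conj_symm] at l
  refine sub_eq_zero.1 (tendsto_nhds_unique tendsto_const_nhds (l.congr' ?_))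
  filter_upwards [tendsto_natCast_atTop_atTop.eventually_ge_atTop (max ρ (‖y‖ + 3 * |r|))] with n hn
  have p : 0 < (n : ℝ) + 1 := by positivity
  exact (key _ _ (hs.chg hρ p (by linarith [le_max_left ρ (‖y‖ + 3 * |r|)]))
    (hs.chg (norm_cdc y r) p (by linarith [le_max_right ρ (‖y‖ + 3 * |r|)]))).symm

end Vale.Agent.P352X
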