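import Vale.Agent.P352X.R.GOOD
import Vale.Agent.P352Z.P352X.R.GEN
import Vale.Agent.P352G2.Kit

open Vale.Agent.P352G

/-!
# P352X: the row GOOD
-/

set_option linter.all false

noncomputable section

open Filter Topology Metric Set MeasureTheory
open scoped SchwartzMap ContDiff

namespace Vale.Agent.P352X

open Vale.Agent.P352 Vale.Agent.P352.GF Vale.Agent.P352.BW Vale.Agent.P352.H246
open Vale.Agent.P352.H496 Vale.Agent.P352.H755 Vale.Agent.P352.H15
open UniformSpace (Completion)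

namespace Gd

variable {D : Type*} [NormedAddCommGroup D] [InnerProductSpace ℂ D] [GrD D] {c : CtxZ D}

/-- `U` implements the point map `τ` -/
structure CvZ (c : CtxZ D) (U : Completion D →L[ℂ] Completion D) (τ : V → V) : Prop where
  uni : U ∈ unitary (Completion D →L[ℂ] Completion D)
  vac : U c.Om = c.Om
  alg : ∀ O, ∀ X ∈ c.N O, U * X * star U ∈ c.N (τ '' O)
  test : ∀ f, GF.IsTest f → GF.IsTest fun x => f (τ x)
  fld : ∃ u : D → D, ∀ v : D, U v = u v ∧ ∀ f, GF.IsTest f →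
    u (c.Thf (fun x => f (τ x)) v) = c.Thf f (u v)

theorem CvZ.mul {U U' τ τ'} (h : CvZ c U τ) (h' : CvZ c U' τ') : CvZ c (U * U') fun x => τ (τ' x) := by
  obtain ⟨u, hu⟩ := h.fld
  obtain ⟨u', hu'⟩ := h'.fld
  refine ⟨mul_mem h.uni h'.uni, by simp [h.vac, h'.vac], fun O X hX => ?_,
    fun f hf => h'.test _ (h.test f hf), fun v => u (u' v), fun v => ⟨by
      simp [(hu _).1, (hu' _).1], fun f hf =>
      (congrArg u ((hu' v).2 _ (h.test f hf))).trans ((hu _).2 f hf)⟩⟩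
  simpa only [star_mul, mul_assoc, image_image] using h.alg _ _ (h'.alg O X hX)

theorem cv_ugZ (g : GRPZ c) {L a τ} (h : IsLor L ∧ ∀ z, sim 1 L a z = τ z) :
    CvZ c (Ug c.Q 1 L a) τ := by
  obtain rfl : sim 1 L a = τ := funext h.2
  refine ⟨g.uni _ _ _, g.vac _ _ _, fun O X => (g.alg _ _ _ O one_pos h.1 X).1, fun f hf => ?_,
    _, fun v => ⟨g.coe _ _ _ v one_pos h.1, fun f => g.th _ _ _ f v one_pos h.1⟩⟩
  obtain ⟨F, rfl⟩ := exists_fl hf
  exact (funext fun x => simS_apply 1 one_pos h.1 a F (WithLp.toLp 2 x) : fl _ = _) ▸ isTest_fl _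

theorem cvZ (g : GRPZ c) (p : Q3) : CvZ c (c.gq p) (sg p) := by
  have a := g.lsc _ _ (Real.exp_pos p.1) (Real.exp_pos (-p.1))
  rw [Gen.sq1] at a
  have b := ((cv_ugZ g a).mul (cv_ugZ g (a := p.2.1 • vb) (τ := fun z => z + p.2.1 • vb)
    ⟨H496.isLor_one, fun z => (sim_one _ z).trans (add_comm _ _)⟩)).mul (cv_ugZ g (g.lgb p.2.2))
  convert b using 1
  · rw [CtxZ.gq, Bo, Usc, Gen.sq1]
    rfl
  · exact funext fun z => null_ext (by simp [sg]) (by simp [sg]) (by simp [sg, Gen.sq1])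

theorem rpZ (g : GRPZ c) : Rp c.gq := by
  refine ⟨Gen.gq_mulZ g, ?_, fun q => (cvZ g q).uni, fun z => ?_⟩
  · simp [CtxZ.gq, Bo, Pb, g.sc1, g.ut0, g.gb0]
  · exact (continuous_prod_of_dense_continuous_lipschitzWith
      (fun y : Completion D × Q3 => c.gq y.2 y.1) 1 Completion.denseRange_coe
      (by rintro _ ⟨v, rfl⟩; exact (Gen.smZ g v).continuous) fun q =>
        LipschitzWith.of_dist_le_mul fun x y => by
          simp [dist_eq_norm, ← map_sub, ContinuousLinearMap.norm_map_of_mem_unitary (cvZ g q).uni]).comp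
      (continuous_const.prodMk continuous_id)

theorem goodZ (g : GRPZ c) {X} (h : ContDiff ℝ ∞ fun q => c.gq q * X * star (c.gq q)) :
    c.Good X := by
  have r := rpZ g
  unfold CtxZ.Good
  convert h using 2 with q
  have e : c.gq (0, 0, -q.2.2) * c.gq (0, -q.2.1, 0) * c.gq (-q.1, 0, 0) = c.gq (iv q) := by
    rw [r.mul, r.mul]
    simp [ml, iv]
    rfl
  rw [r.star_eq, ← e]
  simp [CtxZ.gq, Bo, Pb, g.sc1, g.ut0, g.gb0, mul_assoc]

/-- the action on `D` -/
def udZ (g : GRPZ c) (p : Q3) : D → D := (cvZ g p).fld.choose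

theorem ud_coeZ (g : GRPZ c) (p : Q3) (v : D) : c.gq p v = udZ g p v := ((cvZ g p).fld.choose_spec v).1

/-- the field as a continuous linear map -/
def tfZ (c : CtxZ D) (v : D) : Sch →L[ℂ] Completion D := (Gen.ttZ c v).comp ofSch

theorem tf_applyZ (v : D) (f : Sch) : tfZ c v f = (c.Thf (ev f) v : D) := Gen.tt_applyZ _ _

theorem orbZ (g : GRPZ c) {f : Sch} (cf : HasCompactSupport f) (v : D) (p : Q3) :
    ((c.Thf (ev f) (udZ g p v) : D) : Completion D) = c.gq p (tfZ c v (fs f p)) := by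
  rw [tf_applyZ, ud_coeZ g, show ev (fs f p) = fun x => ev f (sg p x) from funext (fs_apply cf p)]
  exact congrArg _ (((cvZ g p).fld.choose_spec v).2 _ ⟨f, rfl⟩).symm

section half

variable (g : GRPZ c) {f : Sch} (cf : HasCompactSupport f)
  {Z A X : ℕ → Completion D →L[ℂ] Completion D}
  (hZ : (∀ n (v : D), Z n v = A n (c.Thf (ev f) v : D)) ∧ (∀ n, ‖A n‖ ≤ 1) ∧
    ∀ x, Tendsto (fun n => A n x) atTop (𝓝 x))
include g cf hZ

theorem sm_orbZ (v : D) :
    ContDiff ℝ ∞ fun p => ((c.Thf (ev f) (udZ g p v) : D) : Completion D) := by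
  let π : Fin 3 → Q3 →L[ℝ] ℝ := ![.fst ℝ _ _, (ContinuousLinearMap.fst ℝ ℝ ℝ).comp (.snd ℝ _ _),
    (ContinuousLinearMap.snd ℝ ℝ ℝ).comp (.snd ℝ _ _)]
  refine sm_of (e := fun (v : D) p => c.gq p v) (W := fun v p => (c.Thf (ev f) (udZ g p v) : D))
    (c := fun j r => (π j).comp (fderiv ℝ (ml (iv r)) r)) (Z := fun n => (Z n).restrictScalars ℝ)
    (A := fun n => (A n).restrictScalars ℝ) (fun j => contDiff_const.clm_comp
      (ContDiff.fderiv (m := ∞) (sm_ml (sm_iv contDiff_fst) contDiff_snd) contDiff_id le_rfl))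
    (fun v => ?_) (fun v => ?_) (fun n v r => ?_) hZ.2.1 hZ.2.2 v
  · simp only [orbZ g cf]
    exact (rpZ g).st.app ((tfZ c v).continuous.comp (ct_fs cf))
  · obtain ⟨w, B, d, e⟩ := Gen.gq_derZ g v
    refine ⟨w, fun r => ((rpZ g).der d r).congr_fderiv (ContinuousLinearMap.ext fun y => ?_)⟩
    simp [e, π, Fin.sum_univ_three]
  · rw [ud_coeZ g]
    exact hZ.1 n _

theorem halfZ {h : Q3 → ℝ} (sh : ContDiff ℝ ∞ h) (ch : HasCompactSupport h) {f' : Sch}
    (e : ∀ z, f' z = ∫ p, h p • f (sg (iv p) z))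
    (m : ∀ n, Sm h (fun p => c.gq p * Z n * star (c.gq p)) (X n)) (v : D) (k : ℕ) :
    TendstoLocallyUniformly (fun n => iteratedFDeriv ℝ k fun q => c.gq q (X n v))
      (iteratedFDeriv ℝ k fun q => c.gq q (c.Thf (ev f') v : D)) atTop := by
  have r := rpZ g
  have a : ∀ n, X n v = ∫ p, (h p : ℂ) • c.gq p (A n (c.Thf (ev f) (udZ g (iv p) v) : D)) :=
    fun n => by simp only [m n v, r.star_eq, ContinuousLinearMap.mul_apply, ud_coeZ g, hZ.1]
  have b : ((c.Thf (ev f') v : D) : Completion D) =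
      ∫ p, (h p : ℂ) • c.gq p (c.Thf (ev f) (udZ g (iv p) v) : D) := by
    rw [← tf_applyZ, ((sint cf sh.continuous ch).clm (g := f')
      (by simp [e, fs_apply cf]) (tfZ c v)).2]
    simp only [orbZ g cf, ← ContinuousLinearMap.mul_apply, r.mul, ml_iv, r.one,
      ContinuousLinearMap.one_apply, Complex.coe_smul, ContinuousLinearMap.map_smul_of_tower]
  simp only [a, b]
  exact r.conv sh ch hZ.2.1 hZ.2.2 ((sm_orbZ g cf hZ v).comp (sm_iv contDiff_id)) k

end half

theorem smearZ (g : GRPZ c) {h : Q3 → ℝ} (sh : ContDiff ℝ ∞ h) (ch : HasCompactSupport h)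
    {K O : Set V} (k : ∀ p ∈ tsupport h, ∀ z ∈ K, sg p z ∈ O) {Z} (hZ : Z ∈ c.N K) :
    ∃ X, Sm h (fun p => c.gq p * Z * star (c.gq p)) X ∧ X ∈ c.N O ∧ c.Good X :=
  have s := (rpZ g).ad Z
  (s.ex sh.continuous ch).imp fun X m => ⟨m, m.mem sh.continuous ch s fun p hp =>
    c.hN.mono _ _ (image_subset_iff.2 (k p hp)) _ ((cvZ g p).alg K Z hZ),
    goodZ g ((rpZ g).good sh ch m)⟩

/-! ### the grading -/

theorem ev_gqZ (c : CtxZ D) (p : Q3) : Ev (c.gq p) :=
  have R := c.hN.toRepZ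
  R.g0.ev_mul (R.g0.ev_mul (R.ev_ug _ _ _) (R.ev_ug _ _ _)) (R.ev_ug _ _ _)

theorem good_parZ {X} (h : c.Good X) : c.Good (evp' X) ∧ c.Good (odp X) := by
  have R := c.hN.toRepZ
  have g := R.g0
  let W : Q3 → Completion D →L[ℂ] Completion D := fun q =>
    Gb c.Q (-q.2.2) * Pb c.Q (-q.2.1) * Bo c.Q (-q.1)
  have hW : ∀ q, Ev (W q) := fun q =>
    g.ev_mul (g.ev_mul (R.ev_ug _ _ _) (R.ev_ug _ _ _)) (R.ev_ug _ _ _)
  have e : ∀ Y, c.Good Y ↔ ContDiff ℝ ∞ fun q => c.gq q * Y * W q := fun Y => by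
    simp only [CtxZ.Good, CtxZ.gq, W, mul_assoc]
  have e2 : ∀ q, c.gq q * (Gm D * X * Gm D) * W q = Gm D * (c.gq q * X * W q) * Gm D := fun q => by
    rw [g.cj_mul, g.cj_mul (c.gq q), ev_gqZ c q, hW q]
  rw [e] at h
  have h' : ContDiff ℝ ∞ fun q => Gm D * (c.gq q * X * W q) * Gm D :=
    (contDiff_const.mul h).mul contDiff_const
  rw [e, e]
  simp only [evp', odp, mul_smul_comm, smul_mul_assoc, mul_add, add_mul, mul_sub, sub_mul, e2]
  exact ⟨(h.add h').const_smul _, (h.sub h').const_smul _⟩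

theorem half_evZ (g : GRPZ c) {f : Fn} (hf : GF.IsTest f) {Z A : ℕ → Completion D →L[ℂ] Completion D}
    (hZ : (∀ n (v : D), Z n v = A n (c.Thf f v : D)) ∧ (∀ n, ‖A n‖ ≤ 1) ∧
      ∀ x, Tendsto (fun n => A n x) atTop (𝓝 x)) :
    (∀ n (v : D), evp' (Z n) v = evp' (A n) (c.Thf f v : D)) ∧ (∀ n, ‖evp' (A n)‖ ≤ 1) ∧
      ∀ x, Tendsto (fun n => evp' (A n) x) atTop (𝓝 x) := by
  have G := c.hN.toRepZ.g0
  have e : ∀ (X : Completion D →L[ℂ] Completion D) z,
      evp' X z = (2⁻¹ : ℂ) • (X z + Gm D (X (Gm D z))) := fun X z => rfl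
  have e2 : ∀ v : D, ((c.Thf f (Gd v) : D) : Completion D) = Gm D (c.Thf f v : D) := fun v => by
    have cs : ∀ w : Ix → D, ((∑ i, w i : D) : Completion D) = ∑ i, (w i : Completion D) :=
      fun w => map_sum (Completion.toComplL (𝕜 := ℂ)) w _
    simp only [CtxZ.Thf, GF.tr, g.gT _ _ _ _ hf, cs, Completion.coe_smul, map_sum, map_smul,
      g.gext]
  refine ⟨fun n v => by rw [e, e, g.gext, hZ.1, hZ.1, e2], fun n =>
    ContinuousLinearMap.opNorm_le_bound _ zero_le_one fun x => ?_, fun x => ?_⟩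
  · have a : ∀ x, ‖A n x‖ ≤ ‖x‖ := fun x => by
      simpa using (A n).le_of_opNorm_le (hZ.2.1 n) x
    have b := norm_add_le (A n x) (Gm D (A n (Gm D x)))
    have b2 := a (Gm D x)
    rw [G.norm] at b b2
    rw [e, norm_smul, norm_inv, Complex.norm_two]
    linarith [a x]
  · have k := ((hZ.2.2 x).add (((Gm D).continuous.tendsto _).comp (hZ.2.2 (Gm D x)))).const_smul
      (2⁻¹ : ℂ)
    rw [G.gz, ← two_smul ℂ, inv_smul_smul₀ two_ne_zero] at k
    exact k

theorem sm_evZ (g : GRPZ c) {h : Q3 → ℝ} (sh : Continuous h) (ch : HasCompactSupport h) {Z X}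
    (hZ : Ev Z) (m : Sm h (fun p => c.gq p * Z * star (c.gq p)) X) : Ev X := by
  have G := c.hN.toRepZ.g0
  refine G.ev_of_apply fun z => ?_
  rw [m, m, ← (Gm D).integral_comp_comm (int_h sh ch (((rpZ g).ad Z).ct z))]
  refine integral_congr_ae (.of_forall fun p => ?_)
  show Gm D (_ • _) = _ • _
  rw [map_smul, G.ev_apply (G.ev_mul (G.ev_mul (ev_gqZ c p) hZ) (G.ev_star (ev_gqZ c p)))]

theorem dense_evZ (g : GRPZ c) {O : Set V} (hd : Dense {z | ∃ X ∈ c.N O, c.Good X ∧ X c.Om = z})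
    {z : Completion D} (hz : Gm D z = z) :
    z ∈ closure {z | ∃ X ∈ c.N O, Ev X ∧ c.Good X ∧ X c.Om = z} := by
  have G := c.hN.toRepZ.g0
  have k := map_mem_closure (evp' (D := D) 1 + (2⁻¹ : ℂ) • (Gm D - 1)).continuous (hd z)
    (t := {z | ∃ X ∈ c.N O, Ev X ∧ c.Good X ∧ X c.Om = z}) ?_
  · simpa [G.ev_one.evp, hz] using k
  rintro _ ⟨X, h1, h2, rfl⟩
  refine ⟨_, evp_mem h1 (g.gN _ _ h1), G.ev_evp X, (good_parZ h2).1, ?_⟩
  rw [G.evp_apply X g.gv, G.ev_one.evp]
  simp only [ContinuousLinearMap.add_apply, ContinuousLinearMap.smul_apply,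
    ContinuousLinearMap.sub_apply, ContinuousLinearMap.one_apply]
  module

theorem dense_odZ (g : GRPZ c) {O : Set V} (hd : Dense {z | ∃ X ∈ c.N O, c.Good X ∧ X c.Om = z})
    {z : Completion D} (hz : Gm D z = -z) :
    z ∈ closure {z | ∃ X ∈ c.N O, Od X ∧ c.Good X ∧ X c.Om = z} := by
  have G := c.hN.toRepZ.g0
  have k := map_mem_closure ((2⁻¹ : ℂ) • (1 - Gm D)).continuous (hd z)
    (t := {z | ∃ X ∈ c.N O, Od X ∧ c.Good X ∧ X c.Om = z}) ?_
  · rwa [ContinuousLinearMap.smul_apply, ContinuousLinearMap.sub_apply, hz, sub_neg_eq_add,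
      ContinuousLinearMap.one_apply, ← two_smul ℂ, inv_smul_smul₀ two_ne_zero] at k
  rintro _ ⟨X, h1, h2, rfl⟩
  exact ⟨_, odp_mem h1 (g.gN _ _ h1), G.od_odp X, (good_parZ h2).2, G.odp_apply X g.gv⟩

end Gd

open Gd

theorem good_rowZ {D : Type*} [NormedAddCommGroup D] [InnerProductSpace ℂ D] [GrD D] (c : CtxZ D)
    (t : T1Z c) : GOODZ c := by
  have g := t.grp
  have R := rpZ g
  have G := c.hN.toRepZ.g0
  have hd : ∀ y r, 0 < r → Dense {z | ∃ X ∈ c.N (dc y r), c.Good X ∧ X c.Om = z} := by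
    intro y r r0
    obtain ⟨ρ, ρ0, hρ⟩ := nhds_basis_closedBall.mem_iff.1 ((open_dc y r).mem_nhds (mem_dc y r0))
    refine ((g.rs _ isOpen_ball ⟨y, mem_ball_self ρ0⟩).mono ?_).of_closure
    rintro _ ⟨Z, hZ, rfl⟩
    refine Metric.mem_closure_iff.2 fun ε ε0 => ?_
    obtain ⟨h, sh, ch, th, h0, h1⟩ := bump ((near (isCompact_closedBall y ρ) (open_dc y r) hρ).and
      ((R.ct (Z c.Om)).continuousAt.eventually (closedBall_mem_nhds _ (half_pos ε0))))
    obtain ⟨X, m, k⟩ := smearZ g sh ch (fun p hp => (th hp).1)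
      (c.hN.mono _ _ ball_subset_closedBall _ hZ)
    refine ⟨_, ⟨X, k.1, k.2, rfl⟩, ?_⟩
    rw [dist_comm, dist_eq_norm, m]
    simp only [ContinuousLinearMap.mul_apply, R.star_eq, (cvZ g _).vac, Complex.coe_smul]
    exact (approx sh.continuous ch h0 h1 (R.ct _) fun p hp => by
      simpa [R.one, dist_eq_norm] using (th hp).2).trans_lt (half_lt_self ε0)
  refine ⟨hd, fun X => good_parZ, fun y r r0 z hz => ?_, fun y r r0 z hz => ?_,
    fun y r f m η hf η0 => ?_⟩
  · exact dense_evZ g (hd y r r0) hz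
  · exact dense_odZ g (hd y r r0) hz
  · have cf : HasCompactSupport f := hf.2.1
    have a : Continuous fun p => sn m (fs f (iv p) - f) := by
      simp only [Api4.sn_eq]
      exact (ST.continuous_sn m).comp (((ct_fs cf).comp ct_iv).sub continuous_const)
    obtain ⟨h, sh, ch, th, h0, h1⟩ := bump ((near cf (open_dc y r) hf.2.2).and
      (a.continuousAt.eventually_lt continuousAt_const (g := fun _ => η / 2) (by
        rw [iv_zero, show fs f 0 = f from SchwartzMap.ext fun z => by rw [fs_apply cf, sg_zero],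
          sub_self, sn, map_zero]
        exact half_pos η0)))
    have s := sint cf sh.continuous ch
    have e : ∀ z, s.int z = ∫ p, h p • f (sg (iv p) z) := fun z => by
      simp [s.int_apply, fs_apply cf]
    have hK := (ch.prod cf).image sm_sg.continuous
    have z0 : ∀ z ∉ (fun q : Q3 × V => sg q.1 q.2) '' tsupport h ×ˢ tsupport f, s.int z = 0 :=
        fun z hz => by
      rw [e]
      refine integral_eq_zero_of_ae (.of_forall fun p => smul_eq_zero.2 (by_contra fun k => hz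
        ⟨(p, sg (iv p) z), ⟨subset_closure (not_or.1 k).1, subset_closure (not_or.1 k).2⟩, ?_⟩))
      simpa only [iv_iv] using sg_iv (iv p) z
    obtain ⟨Z0, A, B, hZ0, hA0, hB0⟩ := trunc (g.affh (tsupport f) _ ⟨hf.1, cf, le_rfl⟩)
    let Z := fun n => evp' (Z0 n)
    have hZ : ∀ n, Z n ∈ c.N (tsupport f) := fun n => evp_mem (hZ0 n) (g.gN _ _ (hZ0 n))
    have hA := half_evZ g hf.1 hA0
    have hB := half_evZ (Z := fun n => star (Z0 n)) g (isTest_bar hf.1) hB0
    simp only [← G.star_evp] at hB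
    choose X hX k using fun n => smearZ g sh ch (fun p hp => (th hp).1) (hZ n)
    obtain ⟨F, hF⟩ := isTest_bar hf.1
    obtain ⟨F', hF'⟩ := isTest_bar ⟨s.int, rfl⟩
    refine ⟨s.int, X, ⟨⟨_, rfl⟩, .intro hK z0, (closure_minimal (Function.support_subset_iff'.2 z0)
      hK.isClosed).trans ?_⟩, (Lie.sn_le (half_pos η0).le fun i hi j hj x =>
      (SchwartzMap.le_seminorm ℝ i j _ x).trans ?_).trans_lt (half_lt_self η0), k,
      fun n => sm_evZ g sh.continuous ch (G.ev_evp _) (hX n), fun v j => ⟨halfZ g cf hA sh ch e hX v j, ?_⟩⟩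
    · rintro _ ⟨q, hq, rfl⟩
      exact (th hq.1).1 _ hq.2
    · rw [← ST.norm_wd, map_sub, (s.clm_real s.int_apply (ST.wd i j)).2]
      simp only [map_smul]
      refine approx sh.continuous ch h0 h1 ((ST.wd i j).continuous.comp ((ct_fs cf).comp ct_iv))
        fun p hp => ?_
      rw [Function.comp_apply, ← map_sub, ST.norm_wd, ← ST.seminorm_eq (𝕜 := ℂ)]
      exact (Lie.le_sn hi hj _).trans (th hp).2.le
    · rw [← hF] at hB
      rw [← hF']
      have b : ∀ z, F z = star (f z) := congrFun hF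
      refine halfZ g (show IsCompact (tsupport (ev F)) by rw [hF, tsupport_bar]; exact cf) hB sh ch
        (fun z => ?_) (fun n => ?_) v j
      · rw [show F' z = starRingEnd ℂ (s.int z) from congrFun hF' z, e, ← integral_conj]
        simp [b]
      · have s := R.ad (Z n)
        have s' := R.ad (star (Z n))
        rw [norm_star] at s'
        simpa only [star_mul, star_star, mul_assoc] using (hX n).star sh.continuous ch s
          (by simpa only [star_mul, star_star, mul_assoc] using s')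

end Vale.Agent.P352X
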