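import Vale.Agent.P352X.R.IB
import Vale.Agent.P352Z.P352X.R.IB.Est

open Vale.Agent.P352G

/-!
# P352X: the row IB (helper83)
-/

set_option linter.all false

open MeasureTheory Filter Topology Set
open scoped SchwartzMap ComplexConjugate ContDiff Real

namespace Vale.Agent.P352X

open Vale.Agent.P352 Vale.Agent.P352.GF Vale.Agent.P352.BW Vale.Agent.P352.H246
open Vale.Agent.P352.H496 Vale.Agent.P352.H755
open UniformSpace (Completion)
open Complex (I exp)

noncomputable section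

namespace Ib

variable {g g' ρ κ : P3 → ℝ}

variable {D : Type*} [NormedAddCommGroup D] [InnerProductSpace ℂ D] [GrD D] {c : CtxZ D}

theorem ib_thmZ (t : T2Z c) : IBZ c := by
  intro ell c0 cc dd h S ρ k θ k' hρ _ hk _ hm hk' hθ h1 h0
  have hκ := tst_k3 hk hk'
  have G := G_eq hρ hκ fun y hy => by rw [k3, (h1 y hy).1, (h1 y hy).2, mul_one]
  refine ⟨_, G ▸ Complex.ofReal_ne_zero.2 (mul_ne_zero (by positivity)
    (mul_ne_zero (by norm_num) h0)), fun η hη => ?_⟩
  have p := sd_ch (.inl rfl) hθ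
  have m := sd_ch (.inr rfl) hθ
  have A := fun j => tst_ap j hρ
  have B := fun j => tst_ap j hκ
  have K := fun j : Fin 3 => prim3 hk hk' (hm j (Nat.le_of_lt_succ j.2))
  have l1 := tendsto_finset_sum Finset.univ fun (j : Fin 3) _ =>
    ((((faceRZ h t S (.inr rfl) hθ p (B j) (A (2 - j)) ((K j).imp fun _ a => ⟨a.1, .inl a.2⟩)).add
      (faceLZ h t S (.inl rfl) hθ m (B j) (A (2 - j)) ((K j).imp fun _ a => ⟨a.1, .inl a.2⟩))).add
      (faceLZ h t S (.inl rfl) hθ m (A (2 - j)) (B j) ((K j).imp fun _ a => ⟨a.1, .inr a.2⟩))).add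
      (faceRZ h t S (.inr rfl) hθ p (A (2 - j)) (B j)
        ((K j).imp fun _ a => ⟨a.1, .inr a.2⟩))).const_mul (![1, -2, 1] j : ℂ)
  have l2 := (((lim_int (S.int _ _ p.d0 m.d0)).comp ratio).sub_const
    (YY cc (ch 1 θ) (ch (-1) θ))).const_mul (∑ j : Fin 3, (![1, -2, 1] j : ℂ) *
      (II (ap (2 - j) ρ) (ap j (k3 k k')) + II (ap j (k3 k k')) (ap (2 - j) ρ)))
  have l3 := l1.add l2
  simp only [add_zero, mul_zero, Finset.sum_const_zero, YY, sub_self] at l3
  refine (eventually_curry_iff (p := fun q : ℝ × ℝ => ‖c.Faces _ _ _ q.1 q.2 - _‖ ≤ η)).1 (((l3.norm.eventually_le_const (by simpa using hη)).and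
    (ev_LL 0)).mono fun q a => (le_of_eq ?_).trans a.1)
  rw [Function.comp, ← two_int (S.cont _ _ p.d0 m.d0) a.2.1 a.2.2.1]
  simp only [CtxZ.Faces, chp_eq, chm_eq, abv_eq, blw_eq, YY, Finset.sum_mul, mul_sub,
    ← Finset.sum_add_distrib, ← Finset.sum_sub_distrib]
  congr 1
  exact Finset.sum_congr rfl fun j _ => by ring

end Ib

theorem ib_rowZ {D : Type*} [NormedAddCommGroup D] [InnerProductSpace ℂ D] [GrD D] (c : CtxZ D) :
    T3Z c → IBZ c := fun t => Ib.ib_thmZ t.toT2Z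

end

end Vale.Agent.P352X
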