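import Vale.Agent.P352X.R.STRUCT
import Vale.Agent.P352Z.P352X.R.GRP.C

open Vale.Agent.P352G

/-!
# P352X, row STRUCT: the contact terms of the divergence
-/

set_option linter.all false

noncomputable section

open Filter Topology Set Metric
open scoped SchwartzMap ContDiff LineDeriv

namespace Vale.Agent.P352X

namespace Str

open Vale.Agent.P352 Vale.Agent.P352.GF Vale.Agent.P352.BW Api4 Grp
open UniformSpace (Completion)

variable {D : Type*} [NormedAddCommGroup D] [InnerProductSpace ℂ D] [GrD D] {Q : Theory D}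
  {T : Ix → Ix → Fld D} {e : Bool} {w : I2 → I2 → S2 →L[ℂ] Completion D}

variable {s : ℝ} {L : Ix → V}

end Str

open Str Api4 in
/-- **row STRUCT** -/
theorem struct_rowZ {D : Type*} [NormedAddCommGroup D] [InnerProductSpace ℂ D] [GrD D] (c : CtxZ D) :
    T0Z c → STRUCTZ c := fun _ e w h => by
  let b : ContDiffBump (0 : P352.GF.V) := ⟨1, 2, one_pos, one_lt_two⟩
  have hχ : Dc (cx b) := dc_cx ⟨b.contDiff, b.hasCompactSupport⟩
  have h1 : ∀ᶠ u in 𝓝 0, cx b u = 1 := b.eventuallyEq_one.mono fun u hu => by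
    rw [cx, hu]
    rfl
  choose C N hC hb using fun p : P352.GF.Ix × I2 => ST.clm_sn_c (dvL w p.1 p.2)
  refine ⟨Finset.univ.sup N, ct w (cx b), ct_cov c.hT h hχ h1, fun k n J γ σ => ⟨?_, ?_⟩,
    fun n J G hG => ?_⟩
  · rw [ct_ix3, ct_ix3, show mon (γ ∘ σ) = mon γ from funext fun u =>
      Equiv.prod_comp σ fun i => (u (γ i) : ℂ)]
  · simp only [ct_ix3, dvL, ind2 h]
  · exact (dvL_apply n J G).symm.trans ((off c.hT h n J).expand (hC (n, J)) (fun f =>
      (hb (n, J) f).trans (mul_le_mul_of_nonneg_left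
        (ST.sn_mono (Finset.le_sup (Finset.mem_univ _)) f) (hC _))) hχ h1 hG)

end Vale.Agent.P352X
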