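import Vale.Agent.P352X.R.WK
import Vale.Agent.P352Z.P352X.R.GRP.C

open Vale.Agent.P352G

/-!
# P352X, row WK: the kernel theorem for the product of two components of `T`
-/

set_option linter.all false

noncomputable section

open MeasureTheory Filter Topology Set
open scoped SchwartzMap

namespace Vale.Agent.P352X

open Vale.Agent.P352 Vale.Agent.P352.GF Vale.Agent.P352.BW
open UniformSpace (Completion)

variable {D : Type*} [NormedAddCommGroup D] [InnerProductSpace ℂ D] [GrD D]

namespace Wk

lemma covZ (c : CtxZ D) {s : ℝ} {L : Ix → V} (hs : 0 < s) (hL : IsLor L) (a : V) (K : I2) (f : Sch)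
    (v : D) : c.T K.1 K.2 (ev f) (c.Q.U s L a v) =
      ∑ K', L2 L K' K • ueI c.Q hs hL a (c.T K'.1 K'.2 (ev (Grp.simS hs hL a f)) v) := by
  rw [c.hT.cov _ _ s L a _ v hs hL ⟨f, rfl⟩, Fintype.sum_prod_type,
    show ev (Grp.simS hs hL a f) = _ from funext (Grp.simS_apply hs hL a f)]
  simp only [L2, Complex.ofReal_mul]
  rfl

end Wk

open Wk in
theorem wk_rowZ (c : CtxZ D) : T1Z c → WKZ c := fun t => by
  obtain ⟨m, C, h⟩ := t.gen.bd2 c.Q.vac
  choose W hW using fun K M : I2 => kernel
    (bil (Grp.T_fld c.hT K.1 K.2) (Grp.T_fld c.hT M.1 M.2) c.Q.vac) (C := C) (m := m) fun f g =>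
      (Completion.norm_coe _).trans_le (h _ _ _ _ f g)
  have hW' : ∀ K M f g, W K M (ST.tens f g) =
      ((c.T K.1 K.2 (ev f) (c.T M.1 M.2 (ev g) c.Q.vac) : D) : Completion D) := hW
  refine ⟨W, fun K M f g F e => ?_, fun s L a K M F G hs hL e => ?_⟩
  · rw [show F = ST.tens f g from SchwartzMap.ext fun z => e z.1 z.2, hW']
  · rw [show G = sim2 hs hL a F from SchwartzMap.ext fun z =>
      (e z.1 z.2).trans (sim2_apply hs hL a F z.1 z.2).symm]
    have key : W K M = ∑ K', ∑ M', (L2 L K' K * L2 L M' M) •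
        (Ug c.Q s L a ∘L W K' M' ∘L sim2 hs hL a) := ST.ext2 fun f g _ _ => by
      simp only [ContinuousLinearMap.sum_apply, ContinuousLinearMap.smul_apply,
        ContinuousLinearMap.comp_apply, sim2_tens, hW', t.grp.coe _ _ _ _ hs hL]
      conv_lhs => rw [← c.Q.U_vac s L a hs hL, covZ c hs hL,
        ← fL_apply (Grp.T_fld c.hT K.1 K.2)]
      simp only [map_sum, map_smul, fL_apply, ueI_apply, covZ c hs hL, Finset.smul_sum, smul_smul]
      rw [Finset.sum_comm, ← Completion.coe_toComplL (𝕜 := ℂ), map_sum]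
      simp only [map_sum, map_smul, Completion.coe_toComplL, mul_comm]
    rw [key]
    simp only [ContinuousLinearMap.sum_apply, ContinuousLinearMap.smul_apply,
      ContinuousLinearMap.comp_apply]

end Vale.Agent.P352X
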