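import Vale.Agent.P352X.R.IX
import Vale.Agent.P352Z.P352X.R.IX.D

open Vale.Agent.P352G

/-!
# P352X, row IX: the transverse boundary of the third leg (helper80)
-/

set_option linter.all false

open MeasureTheory Filter Topology
open scoped SchwartzMap ComplexConjugate ENNReal ContDiff

namespace Vale.Agent.P352X

open Vale.Agent.P352 Vale.Agent.P352.GF Vale.Agent.P352.BW Vale.Agent.P352.H246
open Vale.Agent.P352.H496 Vale.Agent.P352.H755 Vale.Agent.P352.H15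
open UniformSpace (Completion)
open Complex (I)
open CK.Near (Nb ex_Nb)

noncomputable section

namespace IXH

section ev

variable {w : ℝ → ℝ} {F F' : ℝ → ℝ → ℝ → ℂ}

end ev

variable {D : Type*} [NormedAddCommGroup D] [InnerProductSpace ℂ D] [GrD D] {c : CtxZ D}

/-- the terms -/
def TmZ (c : CtxZ D) (G : E5 → ℂ) (K : ℝ → ℝ) (j : ℕ) (g : P3 → ℝ) (ρ : ℝ → ℝ) (ε δ L : ℝ) : ℂ :=
  XZ c (Ps G K ε) (pr (gS j g L) (dlt δ ρ))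

/-- the bound for functions with `n` vanishing moments -/
def PNZ (c : CtxZ D) (w : ℝ → ℝ) (n : ℕ) : Prop := ∀ G K j g ρ, Cl G → Mom n K → KC j g → Tst ρ →
  tsupport ρ ⊆ Set.Icc (-1) 1 → Ev w (TmZ c G K j g ρ)

theorem pn_zeroZ [Fact c.tp] (t : T3Z c) : ∃ m : ℕ, PNZ c (fun ε => ε⁻¹ ^ m) 0 := by
  obtain ⟨m, h⟩ := bndZ t
  refine ⟨m, fun G K j g ρ hG hK hg hρ hs => ?_⟩
  obtain ⟨r, hr⟩ := supp_Ps hG.1 hK.1
  obtain ⟨C1, hC1, h1⟩ := sn_Ps hG.1 hK.1 m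
  obtain ⟨C, A, hC, -, h⟩ := h j g r hg
  have h0 : 0 ≤ ∫ t, |ρ t| := integral_nonneg fun _ => abs_nonneg _
  refine ⟨C * C1 * ∫ t, |ρ t|, by positivity, fun ε hε δ hδ => ?_⟩
  filter_upwards [eventually_ge_atTop A] with L hL
  refine (h L _ _ (∫ t, |ρ t|) hL (dc_Ps hG.1 hK.1 hε) (hr ε hε) (Ap.tst_dlt hρ hδ.1.ne')
    ((Ap.tsupport_dlt_Icc hs hδ.1).trans (Set.Icc_subset_Icc (by linarith [hδ.2, hε.2])
      (by linarith [hδ.2, hε.2]))) ⟨fun l hl => absurd hl (Nat.not_lt_zero l), le_of_eq ?_⟩).trans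
    ((mul_le_mul_of_nonneg_right (mul_le_mul_of_nonneg_left (h1 ε hε) hC) h0).trans_eq (by ring))
  simp only [Ap.abs_dlt hδ.1, Ap.integral_dlt hδ.1]

theorem ev_farZ (hf : FARZ c) {w : ℝ → ℝ} (hw : ∀ ε, 0 < ε → 0 < w ε) {G : E5 → ℂ} {K ρ : ℝ → ℝ}
    (j : ℕ) {g : P3 → ℝ} (hG : Dc G) (hK : Tst K) (hg : Tst g) (h0 : (0 : P3) ∉ tsupport g)
    (hρ : Tst ρ) : Ev w (TmZ c G K j g ρ) :=
  ⟨1, zero_le_one, fun ε hε δ hδ => X_farZ hf j hg h0 (Ap.tst_dlt hρ hδ.1.ne') (dc_Ps hG hK hε)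
    (by rw [one_mul]; exact hw ε hε.1)⟩

theorem pn_oneZ [Fact c.tp] (hc : GRPZ c) (hf : FARZ c) {w : ℝ → ℝ} (hw : ∀ ε, 0 < ε → 0 < w ε) {n : ℕ}
    (h : PNZ c w n) {G : E5 → ℂ} {K ρ : ℝ → ℝ} {j : ℕ} {g : P3 → ℝ} (hG : Cl G) (hK : Mom n K)
    (hg : KC j g) (hρ : Tst ρ) (hs : tsupport ρ ⊆ Set.Icc (-1) 1) (i : Fin 2) :
    Ev (fun ε => ε * w ε) (TmZ c (mu5 (fun u => u.1.2 i - u.1.1.2 i) G) (deriv K) j g ρ) := by
  have hw' : ∀ ε, 0 < ε → 0 < ε * w ε := fun ε a => mul_pos a (hw ε a)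
  have tρ : Tst fun t => t * ρ t := Ap.cs_mul_l contDiff_fun_id hρ
  have a1 := ev_farZ hf hw' (j + 2) (dc_mu5 (φ := fun u => u.1.1.2 i) (by fun_prop) hG.1) hK.1
    (tst_da hg.tst) hg.da0 hρ
  have a2 := ev_farZ hf hw' (j + 1) hG.1 hK.1 (tst_xi i (tst_da hg.tst)) (hg.xda0 i) hρ
  have a3 := (h G K _ _ _ hG hK (hg.di i) tρ (tsupport_mul_subset_right.trans hs)).gain
    (s := fun _ δ => δ) fun ε _ δ hδ => (abs_of_pos hδ.1).trans_le hδ.2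
  have a4 := (h _ K _ _ _ (hG.der i) hK hg hρ hs).gain (s := fun ε _ => ε)
    fun ε hε _ _ => (abs_of_pos hε.1).le
  refine (((a1.sub a2).sub a3).sub a4).congr fun ε hε δ hδ L hL => ?_
  have e : pr (gS (j + 1) (di i g) L) (fun t => t * dlt δ ρ t) =
      fun z => (δ : ℂ) * pr (gS (j + 1) (di i g) L) (dlt δ fun t => t * ρ t) z := funext fun z => by
    have := Ap.pow_dlt hδ.1.ne' 1 ρ (be z)
    simp only [pow_one] at this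
    simp only [pr, this]
    push_cast
    ring
  rw [TmZ, wardZ hc hG.1 hK.1 (tst_gS j hg.tst hL) (Ap.tst_dlt hρ hδ.1.ne') hε i, da_gS hg.tst hL,
    xi_gS i hL, di_gS i hg.tst hL, e, X_mul_rZ (dc_Ps hG.1 hK.1 hε)
      (Far.dc_pr (tst_gS _ (tst_di i hg.tst) hL) (Ap.tst_dlt tρ hδ.1.ne'))]
  rfl

theorem pn_succZ [Fact c.tp] (hc : GRPZ c) (hf : FARZ c) {w : ℝ → ℝ} (hw : ∀ ε, 0 < ε → 0 < w ε) {n : ℕ}
    (h : PNZ c w n) : PNZ c (fun ε => ε * w ε) (n + 1) := by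
  intro G k j g ρ hG hk hg hρ hs
  obtain ⟨K, hK, rfl⟩ := hk.prim
  refine ((pn_oneZ hc hf hw h (hG.div 0) hK hg hρ hs 0).add
    (pn_oneZ hc hf hw h (hG.div 1) hK hg hρ hs 1)).congr fun ε hε δ hδ L hL => ?_
  simp only [TmZ]
  rw [← X_add_lZ (dc_Ps ((hG.div 0).mul (by fun_prop)).1 hk.1 hε)
    (dc_Ps ((hG.div 1).mul (by fun_prop)).1 hk.1 hε)
    (Far.dc_pr (tst_gS j hg.tst hL) (Ap.tst_dlt hρ hδ.1.ne'))]
  congr 1
  funext z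
  simp only [Ps, ten, ← add_mul, ← hG.split]

theorem pnZ [Fact c.tp] (t : T3Z c) (hf : FARZ c) : ∃ n, PNZ c (fun ε => ε) n := by
  obtain ⟨m, h⟩ := pn_zeroZ t
  have key : ∀ n, PNZ c (fun ε => ε ^ n * ε⁻¹ ^ m) n := fun n => by
    induction n with
    | zero => simpa only [pow_zero, one_mul] using h
    | succ n ih =>
      simpa only [pow_succ', mul_assoc] using pn_succZ t.grp hf (fun ε a => by positivity) ih
  refine ⟨m + 1, fun G K j g ρ a1 a2 a3 a4 a5 => ?_⟩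
  obtain ⟨C, hC, h⟩ := key (m + 1) G K j g ρ a1 a2 a3 a4 a5
  refine ⟨C, hC, fun ε hε δ hδ => (h ε hε δ hδ).mono fun L a => a.trans_eq ?_⟩
  have := hε.1.ne'
  beta_reduce
  rw [inv_pow]
  field_simp
  ring

/-! ## the weight -/

theorem ev_twoZ {w : ℝ → ℝ} {n : ℕ} (h : PNZ c w n) {G : E5 → ℂ} {k ρ : ℝ → ℝ} {j : ℕ} {g : P3 → ℝ}
    (hG : Cl G) (hk : Mom (n + 2) k) (hg : KC j g) (hρ : Tst ρ) (hs : tsupport ρ ⊆ Set.Icc (-1) 1) :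
    Ev w fun ε δ L => XZ c (Ps2 G k ε) (pr (gS j g L) (dlt δ ρ)) := by
  have c1 := hG.mul (φ := fun u => u.1.1.1 ^ 2) (by fun_prop)
  have c2 := hG.mul (φ := fun u => -2 * u.1.1.1) (by fun_prop)
  refine (((h _ _ j g ρ c1 hk.mono.mono hg hρ hs).add (h _ _ j g ρ c2 hk.mul.mono hg hρ hs)).add
    (h _ _ j g ρ hG hk.mul.mul hg hρ hs)).congr fun ε hε δ hδ L hL => ?_
  have d0 := Far.dc_pr (tst_gS j hg.tst hL) (Ap.tst_dlt hρ hδ.1.ne')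
  have d1 := dc_Ps c1.1 hk.1 hε
  have d2 := dc_Ps c2.1 hk.mul.1 hε
  simp only [TmZ]
  rw [← X_add_lZ d1 d2 d0, ← X_add_lZ (Api4.dc_add d1 d2) (dc_Ps hG.1 hk.mul.mul.1 hε) d0]
  congr 1
  funext z
  simp only [Ps2, Ps, ten, mu5, cx, BL_apply, pl_1]
  push_cast
  ring

theorem ev_threeZ {w : ℝ → ℝ} {n : ℕ} (h : PNZ c w n) {G : E5 → ℂ} {k ρ : ℝ → ℝ} {κ : P3 → ℝ}
    (hG : Cl G) (hk : Mom (n + 2) k) (hκ : Cut κ) (hρ : Tst ρ) (hs : tsupport ρ ⊆ Set.Icc (-1) 1)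
    (i : Fin 2) : Ev w fun ε δ L => c.t0 (sch (Fi G k κ ρ ε δ L i)) := by
  have k2 := kc_cut hκ
  have k1 := k2.xi i
  have k0 := k1.xi i
  have c1 := hG.mul (φ := fun u => -(u.1.1.2 i + u.1.2 i)) (by fun_prop)
  have c2 := hG.mul (φ := fun u => u.1.1.2 i * u.1.2 i) (by fun_prop)
  refine (((ev_twoZ h hG hk k0 hρ hs).add (ev_twoZ h c1 hk k1 hρ hs)).add
    (ev_twoZ h c2 hk k2 hρ hs)).congr fun ε hε δ hδ L hL => ?_
  have tρ := Ap.tst_dlt hρ hδ.1.ne'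
  have d0 := Far.dc_tri (dc_Ps2 hG.1 hk.1 hε) (Far.dc_pr (tst_gS 0 k0.tst hL) tρ)
  have d1 := Far.dc_tri (dc_Ps2 c1.1 hk.1 hε) (Far.dc_pr (tst_gS 1 k1.tst hL) tρ)
  have d2 := Far.dc_tri (dc_Ps2 c2.1 hk.1 hε) (Far.dc_pr (tst_gS 2 k2.tst hL) tρ)
  simp only [XZ]
  rw [← Far.t0_addZ, ← Far.t0_addZ, ← Api4.sch_add d0 d1, ← Api4.sch_add (Api4.dc_add d0 d1) d2]
  congr 2
  funext z
  rw [← xi_gS i hL, ← xi_gS i hL, gS_two hL]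
  simp only [Fi, Ps2, Ps, ten, mu5, cx, BL_apply, pl_2, pr, xi]
  push_cast
  ring

end IXH

open IXH in
theorem ix_rowZ {D : Type*} [NormedAddCommGroup D] [InnerProductSpace ℂ D] [GrD D] (c : CtxZ D) [Fact c.tp] :
    T3Z c → FARZ c → IXZ c := by
  intro t hf
  obtain ⟨n, h⟩ := pnZ t hf
  refine ⟨n + 1, fun ρ1 κ k θ ρ k' h1 hκ hk hθ hρ hk' hm h2 hs η hη => ?_⟩
  have hG := cl_G0 h1 hθ hk' h2
  have hM : Mom (n + 2) k := ⟨hk, fun j hj => hm j (by omega)⟩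
  obtain ⟨C, hC, h3⟩ := (ev_threeZ h hG hM hκ hρ hs 0).add (ev_threeZ h hG hM hκ hρ hs 1)
  have a1 : ∀ᶠ ε in 𝓝[>] (0 : ℝ), C * ε ≤ η := by
    have : Tendsto (fun ε : ℝ => C * ε) (𝓝 0) (𝓝 0) :=
      Continuous.tendsto' (by fun_prop) _ _ (mul_zero C)
    exact (this.eventually_le_const hη).filter_mono nhdsWithin_le_nhds
  filter_upwards [a1, Ioc_mem_nhdsGT (zero_lt_one' ℝ)] with ε a2 hε δ hδ
  filter_upwards [h3 ε hε δ hδ, eventually_gt_atTop (0 : ℝ)] with L a3 hL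
  have d : ∀ i, Dc (Fi (G0 ρ1 θ k') k κ ρ ε δ L i) := fun i =>
    Api4.dc_mul_left (Ap.smooth_cx (by fun_prop)) (Far.dc_tri (dc_Ps2 hG.1 hk hε)
      (Far.dc_pr (Ap.tst_kL hκ.1 hL) (Ap.tst_dlt hρ hδ.1.ne')))
  rw [← Far.t0_addZ, ← Api4.sch_add (d 0) (d 1)] at a3
  refine le_trans (le_of_eq ?_) (a3.trans a2)
  congr 3
  funext z
  simp only [Fi, Ps2, IXH.Ps, ten, cx, BL_apply, pl_1, pl_2, pr, IXH.G0, Ph0, d2, dx_k3 hk hk', dil,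
    div_eq_inv_mul, Pi.sub_apply]
  push_cast
  ring

end

end Vale.Agent.P352X
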