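import Vale.Agent.P352Z.P352X.R.JC.A2
import Vale.Agent.P352Z.P352X.R.JC.B

open Vale.Agent.P352G

/-!
# P352X, row JC: the modular conjugation of the wedge, duality
-/

set_option linter.all false

namespace Vale.Agent.P352X

variable {D : Type*} [NormedAddCommGroup D] [InnerProductSpace ℂ D] [GrD D]

theorem jc_rowZ (c : CtxZ D) (t : T0Z c) : JCZ c where
  lor := JCa.lor
  gam := JCa.gamZ c
  ug := JCa.ugZ c
  S := JCb.SZ c t
  S0 := JCa.s0Z c
  one := JCa.oneZ c
  two := JCa.twoZ c
  dual := JCb.dualZ c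
  dualE := JCb.dualEZ c
  alg := JCa.algZ c
  algE := JCa.algEZ c
  core := JCb.coreZ c
  coreO := JCb.coreOZ c

end Vale.Agent.P352X
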